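import Vale.Agent.P252.Cert.PolyPSD

/-!
# Weighted diagonal dominance of Bernstein coefficients, and bisection trees

`checkDD` tests that after a congruence `T = L M Lᵀ` on a triangle cone every coefficient of `T`
in the two weights is diagonally dominant with given positive weights: this is linear in the
coefficients, which are read as signed digits of one Kronecker substitution. `checkTree` runs it
on the leaves of a tree of edge bisections.
-/

namespace Vale.Agent.P252.PolyPSD

open Finset Vale.Agent.P100T.PosCheck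
open scoped Matrix

/-- The digit `q` in base `2 ^ (k + 1)`. -/
def dig (k q n : ℕ) : ℕ := (n >>> ((k + 1) * q)) &&& (2 ^ (k + 1) - 1)

theorem dig_eq (k : ℕ) : ∀ (D : ℕ) (c : ℕ → ℤ), (∀ i, |c i| < ((2 ^ k : ℕ) : ℤ)) → ∀ q < D,
    (dig k q ((∑ i ∈ Finset.range D, c i * ((2 : ℤ) ^ (k + 1)) ^ i) + (mask k D : ℤ)).toNat : ℤ) =
      c q + ((2 ^ k : ℕ) : ℤ) := by
  intro D c hc
  set h := 2 ^ k with hh
  set B := 2 ^ (k + 1) with hB
  have hBh : B = 2 * h := by rw [hB, hh, pow_succ']
  set a : ℕ → ℕ := fun i => (c i + (h : ℤ)).toNat with ha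
  have hai : ∀ i, (a i : ℤ) = c i + h := fun i => by
    have := abs_lt.1 (hc i)
    simp only [ha]
    omega
  have hlt : ∀ i, a i < B := fun i => by
    have := abs_lt.1 (hc i)
    have := hai i
    omega
  have hmask : ∀ D : ℕ, mask k D = ∑ i ∈ Finset.range D, h * B ^ i := fun D => by
    induction D with
    | zero => simp [mask]
    | succ D ih =>
      rw [mask_succ, ih, Finset.sum_range_succ', Finset.mul_sum, add_comm]
      simp [pow_succ', mul_left_comm, ← hh, ← hB]
  have hsum : ((∑ i ∈ Finset.range D, c i * ((2 : ℤ) ^ (k + 1)) ^ i) + (mask k D : ℤ)).toNat =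
      ∑ i ∈ Finset.range D, a i * B ^ i := by
    have e : ((∑ i ∈ Finset.range D, c i * ((2 : ℤ) ^ (k + 1)) ^ i) + (mask k D : ℤ)) =
        ((∑ i ∈ Finset.range D, a i * B ^ i : ℕ) : ℤ) := by
      rw [hmask]
      push_cast [hB, hai]
      rw [← Finset.sum_add_distrib]
      exact Finset.sum_congr rfl fun i _ => by ring
    rw [e, Int.toNat_natCast]
  have key : ∀ (q D : ℕ) (a : ℕ → ℕ), (∀ i, a i < B) → q < D →
      (∑ i ∈ Finset.range D, a i * B ^ i) / B ^ q % B = a q := by
    have hB0 : 0 < B := Nat.two_pow_pos _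
    intro q
    induction q with
    | zero =>
      intro D a ha hq
      obtain ⟨D, rfl⟩ : ∃ E, D = E + 1 := ⟨D - 1, by omega⟩
      have e : (∑ i ∈ Finset.range D, a (i + 1) * B ^ (i + 1)) =
          B * ∑ i ∈ Finset.range D, a (i + 1) * B ^ i := by
        rw [Finset.mul_sum]
        exact Finset.sum_congr rfl fun i _ => by ring
      rw [Finset.sum_range_succ', pow_zero, mul_one, Nat.div_one, e, Nat.mul_add_mod,
        Nat.mod_eq_of_lt (ha 0)]
    | succ q ih =>
      intro D a ha hq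
      obtain ⟨D, rfl⟩ : ∃ E, D = E + 1 := ⟨D - 1, by omega⟩
      have e : (∑ i ∈ Finset.range D, a (i + 1) * B ^ (i + 1)) =
          B * ∑ i ∈ Finset.range D, a (i + 1) * B ^ i := by
        rw [Finset.mul_sum]
        exact Finset.sum_congr rfl fun i _ => by ring
      rw [Finset.sum_range_succ', pow_zero, mul_one, e, pow_succ', ← Nat.div_div_eq_div_mul,
        Nat.mul_add_div hB0, Nat.div_eq_of_lt (ha 0), add_zero]
      exact ih D (fun i => a (i + 1)) (fun i => ha _) (by omega)
  intro q hq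
  rw [hsum, dig, Nat.shiftRight_eq_div_pow, Nat.and_two_pow_sub_one_eq_mod, pow_mul, ← hB,
    key q D a hlt hq, hai]

/-- One row: every digit is dominant. -/
def rowTest {m : ℕ} (k D : ℕ) (d : Fin m → ℕ) (t : Fin m → ℕ) (i : Fin m) : Bool :=
  (List.range D).all fun q => Nat.ble (2 ^ k * d i + ((List.finRange m).map fun j =>
      if j = i then 0 else ((dig k q (t j) - 2 ^ k) + (2 ^ k - dig k q (t j))) * d j).sum)
    (dig k q (t i) * d i)

/-- `|x - h|`. -/
noncomputable def absd (h x : ℕ) : ℕ := Nat.add (Nat.sub x h) (Nat.sub h x)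

/-- The weighted off-diagonal sum at one digit, by recursion. -/
noncomputable def offs (l : List (ℕ × ℕ)) (s w h : ℕ) : ℕ :=
  List.rec 0 (fun p _ r => Nat.add (Nat.mul (absd h (Nat.land (Nat.shiftRight p.1 s) w)) p.2) r) l

/-- One row, by recursion (fast in the kernel). -/
noncomputable def rowFast {m : ℕ} (k D : ℕ) (d t : Fin m → ℕ) (i : Fin m) : Bool :=
  Nat.rec true (fun q r => and (Nat.ble
    (Nat.add (Nat.mul (2 ^ k) (d i)) (offs (((List.finRange m).filter fun j => decide (j ≠ i)).map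
      fun j => (t j, d j)) ((k + 1) * q) (2 ^ (k + 1) - 1) (2 ^ k)))
    (Nat.mul (Nat.land (Nat.shiftRight (t i) ((k + 1) * q)) (2 ^ (k + 1) - 1)) (d i))) r) D

theorem offs_eq {m : ℕ} (k q : ℕ) (d t : Fin m → ℕ) (i : Fin m) : ∀ l : List (Fin m),
    offs ((l.filter fun j => decide (j ≠ i)).map fun j => (t j, d j)) ((k + 1) * q)
      (2 ^ (k + 1) - 1) (2 ^ k) = (l.map fun j =>
      if j = i then 0 else ((dig k q (t j) - 2 ^ k) + (2 ^ k - dig k q (t j))) * d j).sum
  | [] => rfl
  | j :: l => by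
    rw [List.map_cons, List.sum_cons, ← offs_eq k q d t i l]
    by_cases h : j = i
    · simp [h]
    · rw [if_neg h, List.filter_cons_of_pos (by simp [h]), List.map_cons]
      rfl

theorem rowTest_of_rowFast {m : ℕ} (k : ℕ) (d t : Fin m → ℕ) (i : Fin m) :
    ∀ D, rowFast k D d t i = true → rowTest k D d t i = true
  | 0, _ => rfl
  | D + 1, h => by
    have h' : (Nat.ble (Nat.add (Nat.mul (2 ^ k) (d i))
        (offs (((List.finRange m).filter fun j => decide (j ≠ i)).map fun j => (t j, d j))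
          ((k + 1) * D) (2 ^ (k + 1) - 1) (2 ^ k)))
        (Nat.mul (Nat.land (Nat.shiftRight (t i) ((k + 1) * D)) (2 ^ (k + 1) - 1)) (d i)) &&
        rowFast k D d t i) = true := h
    rw [Bool.and_eq_true, offs_eq] at h'
    have ih := rowTest_of_rowFast k d t i D h'.2
    simp only [rowTest, List.all_eq_true, List.mem_range] at ih ⊢
    intro q hq
    rcases Nat.lt_succ_iff_lt_or_eq.1 hq with hq' | rfl
    · exact ih q hq'
    · exact h'.1

/-- The test with given digit size and number of digits. -/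
noncomputable def ddAt {m : ℕ} (M : Fin m → Fin m → Ex) (L : Fin m → Fin m → ℤ) (d : Fin m → ℕ)
    (V : Tri) (k P : ℕ) : Bool :=
  let B : ℤ := ((2 ^ (k + 1) : ℕ) : ℤ)
  let BP : ℤ := (((2 ^ (k + 1)) ^ P : ℕ) : ℤ)
  let g : Fin m → Fin m → ℤ := fun a b =>
    ev (V.p0.1 * B + V.p1.1 * BP + V.p2.1) (V.p0.2.1 * B + V.p1.2.1 * BP + V.p2.2.1)
      (V.p0.2.2 * B + V.p1.2.2 * BP + V.p2.2.2) (M a b)
  let t : Fin m → Fin m → ℕ := fun i j =>
    ((((List.finRange m).map fun a =>
      if L i a = 0 then 0 else L i a * ((List.finRange m).map fun b =>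
        if L j b = 0 then 0 else L j b * g a b).sum).sum) + (mask k (P * P) : ℤ)).toNat
  (List.finRange m).all fun i => decide (L i i ≠ 0) && Nat.blt 0 (d i) &&
    ((List.finRange m).all fun j => decide (i < j → L i j = 0)) &&
    rowFast k (P * P) d (t i) i

/-- The number of bits of a digit. -/
noncomputable def ddBits {m : ℕ} (M : Fin m → Fin m → Ex) (L : Fin m → Fin m → ℤ) (V : Tri) : ℕ :=
  Nat.log2 (rowNorm L ^ 2 * entryNorm M V) + 1

/-- Weighted diagonal dominance of every coefficient. -/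
noncomputable def checkDD {m : ℕ} (M : Fin m → Fin m → Ex) (L : Fin m → Fin m → ℤ)
    (d : Fin m → ℕ) (V : Tri) : Bool :=
  ddAt M L d V (ddBits M L V) (degOf M + 1)

/-- Weighted diagonal dominance gives a nonnegative form. -/
theorem form_nonneg_of_dominant {m : ℕ} {t : Fin m → Fin m → ℝ} {d : Fin m → ℝ} (hd : ∀ i, 0 < d i)
    (hs : ∀ i j, t i j = t j i)
    (h : ∀ i, ∑ j, (if j = i then 0 else |t i j| * d j) ≤ t i i * d i) (η : Fin m → ℝ) :
    0 ≤ ∑ i, ∑ j, η i * t i j * η j := by
  set w : Fin m → Fin m → ℝ := fun i j => if j = i then 0 else |t i j| * d j with hw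
  have key : ∀ i j, (if j = i then t i i * η i ^ 2 else 0) -
      (w i j * η i ^ 2 / d i + w j i * η j ^ 2 / d j) / 2 ≤ η i * t i j * η j := by
    intro i j
    by_cases hij : j = i
    · subst hij
      simp [hw]
      exact le_of_eq (by ring)
    · have h2 : ¬ i = j := fun e => hij e.symm
      simp only [hw, if_neg hij, if_neg h2, zero_sub, hs j i]
      have hi := hd i
      have hj := hd j
      have e : (|t i j| * d j * η i ^ 2 / d i + |t i j| * d i * η j ^ 2 / d j) / 2 =
          |t i j| / (2 * (d i * d j)) * ((d j * η i) ^ 2 + (d i * η j) ^ 2) := by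
        field_simp
      rw [neg_le, e]
      have hA : |η i * η j| ≤ ((d j * η i) ^ 2 + (d i * η j) ^ 2) / (2 * (d i * d j)) := by
        rw [le_div_iff₀ (by positivity), abs_mul, mul_pow, mul_pow, ← sq_abs (η i), ← sq_abs (η j)]
        nlinarith [sq_nonneg (d j * |η i| - d i * |η j|)]
      calc -(η i * t i j * η j) ≤ |η i * t i j * η j| := neg_le_abs _
        _ = |t i j| * |η i * η j| := by simp only [abs_mul]; ring
        _ ≤ _ := by
          refine (mul_le_mul_of_nonneg_left hA (abs_nonneg _)).trans (le_of_eq ?_)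
          ring
  refine le_trans ?_ (Finset.sum_le_sum fun i _ => Finset.sum_le_sum fun j _ => key i j)
  have hsw : ∑ i, ∑ j, (w i j * η i ^ 2 / d i + w j i * η j ^ 2 / d j) / 2 =
      ∑ i, ∑ j, w i j * η i ^ 2 / d i := by
    simp only [add_div, Finset.sum_add_distrib]
    rw [Finset.sum_comm (f := fun i j => w j i * η j ^ 2 / d j / 2), ← Finset.sum_add_distrib]
    refine Finset.sum_congr rfl fun i _ => ?_
    rw [← Finset.sum_add_distrib]
    exact Finset.sum_congr rfl fun j _ => add_halves _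
  simp only [Finset.sum_sub_distrib, Finset.sum_ite_eq', Finset.mem_univ, if_true, hsw, sub_nonneg]
  refine Finset.sum_le_sum fun i _ => ?_
  rw [← Finset.sum_div, ← Finset.sum_mul, div_le_iff₀ (hd i)]
  refine (mul_le_mul_of_nonneg_right (h i) (sq_nonneg _)).trans (le_of_eq ?_)
  ring

/-- A checked matrix gives a nonnegative form at the points with weights `X, Y, 1`. -/
theorem dd_chart {m : ℕ} {M : Fin m → Fin m → Ex} {L : Fin m → Fin m → ℤ} {d : Fin m → ℕ}
    {V : Tri} (hs : ∀ k l p, evalAt (M k l) p = evalAt (M l k) p) (h : checkDD M L d V = true)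
    {X Y : ℝ} (hX : 0 ≤ X) (hY : 0 ≤ Y) (ξ : Fin m → ℝ) :
    0 ≤ ∑ k, ∑ l, ξ k * evalAt (M k l) (V.pt X Y 1) * ξ l := by
  set k := ddBits M L V with hk
  set D := degOf M
  set P := D + 1 with hP
  set E := congr L (fun k l => V.pull (M k l)) with hE
  have hB : ∀ i j, Bd D (E i j) := bd_congr L fun a b => by
    have hd : tdeg (M a b) ≤ D :=
      le_trans (le_mx (List.mem_map_of_mem (f := fun l => tdeg (M a l)) (List.mem_finRange b)))
        (le_mx (List.mem_map_of_mem (f := fun k => mx ((List.finRange m).map fun l => tdeg (M k l)))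
          (List.mem_finRange a)))
    obtain ⟨h1, h2, h3⟩ := bd_pull V (M a b)
    exact ⟨h1.trans hd, h2.trans hd, h3⟩
  have hR : ∀ i, ∑ a, (L i a).natAbs ≤ rowNorm L := fun i => by
    rw [Fin.sum_univ_def]
    exact le_mx (List.mem_map_of_mem
      (f := fun i => ((List.finRange m).map fun k => (L i k).natAbs).sum) (List.mem_finRange i))
  have hnorm : ∀ i j, (E i j).norm ≤ rowNorm L ^ 2 * entryNorm M V := fun i j => by
    refine (norm_congr L (N := entryNorm M V) (fun a b => ?_) i j).trans ?_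
    · rw [Tri.pull, norm_subst]
      refine le_trans (le_of_eq ?_) (le_trans (le_mx (List.mem_map_of_mem
        (f := fun l => normAt (lnorm V.p0.1 V.p1.1 V.p2.1) (lnorm V.p0.2.1 V.p1.2.1 V.p2.2.1)
          (lnorm V.p0.2.2 V.p1.2.2 V.p2.2.2) (M a l)) (List.mem_finRange b)))
        (le_mx (List.mem_map_of_mem (f := fun k => mx ((List.finRange m).map fun l =>
          normAt (lnorm V.p0.1 V.p1.1 V.p2.1) (lnorm V.p0.2.1 V.p1.2.1 V.p2.2.1)
            (lnorm V.p0.2.2 V.p1.2.2 V.p2.2.2) (M k l))) (List.mem_finRange a))))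
      simp [lin, Ex.norm, lnorm]
    · rw [pow_two, mul_assoc]
      exact Nat.mul_le_mul (hR i) (Nat.mul_le_mul_right _ (hR j))
  set c : Fin m → Fin m → ℕ → ℤ := fun i j => coeff P P (E i j).terms with hc
  have hdeg : ∀ i j, ∀ t ∈ (E i j).terms, t.2.1 < P ∧ t.2.2.1 < P ∧ t.2.2.2 = 0 :=
    fun i j t ht => by
      obtain ⟨h1, h2, h3⟩ := (E i j).terms_deg t ht
      obtain ⟨b1, b2, b3⟩ := hB i j
      omega
  have hidx : ∀ i j, ∀ t ∈ (E i j).terms, idx P P t.2 = t.2.1 + P * t.2.2.1 := fun i j t ht => by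
    simp [idx, (hdeg i j t ht).2.2]
  have hlt : ∀ i j, ∀ t ∈ (E i j).terms, idx P P t.2 < P * P := fun i j t ht => by
    obtain ⟨h1, h2, h3⟩ := hdeg i j t ht
    rw [hidx i j t ht]
    nlinarith
  have hcb : ∀ i j q, |c i j q| < ((2 ^ k : ℕ) : ℤ) := fun i j q =>
    calc |c i j q| ≤ (tnorm (E i j).terms : ℤ) := coeff_abs ..
      _ ≤ ((E i j).norm : ℤ) := by exact_mod_cast (E i j).tnorm_terms
      _ < _ := by exact_mod_cast lt_of_le_of_lt (hnorm i j) Nat.lt_log2_self
  simp only [checkDD, ddAt, Bool.and_eq_true, List.all_eq_true, List.mem_finRange, true_implies,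
    decide_eq_true_eq] at h
  set B : ℤ := ((2 ^ (k + 1) : ℕ) : ℤ) with hBdef
  set BP : ℤ := (((2 ^ (k + 1)) ^ P : ℕ) : ℤ) with hBPdef
  have hval : ∀ i j, ((List.finRange m).map fun a =>
      if L i a = 0 then 0 else L i a * ((List.finRange m).map fun b =>
        if L j b = 0 then 0 else L j b *
          ev (V.p0.1 * B + V.p1.1 * BP + V.p2.1) (V.p0.2.1 * B + V.p1.2.1 * BP + V.p2.2.1)
            (V.p0.2.2 * B + V.p1.2.2 * BP + V.p2.2.2) (M a b)).sum).sum =
      (E i j).eval B BP 0 := fun i j => by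
    rw [hE, eval_congr, ← Fin.sum_univ_def]
    refine Finset.sum_congr rfl fun a _ => ?_
    split_ifs with ha
    · simp [ha]
    · rw [← Fin.sum_univ_def, Int.cast_id]
      refine congrArg _ (Finset.sum_congr rfl fun b _ => ?_)
      split_ifs with hb
      · simp [hb]
      · simp only [Int.cast_id, ev_eq, Tri.pull, eval_subst, lin, Ex.eval]
  have hsum : ∀ i j, (E i j).eval B BP 0 =
      ∑ q ∈ Finset.range (P * P), c i j q * (2 * (2 ^ k : ℕ) : ℤ) ^ q := fun i j => by
    have hb : (2 * (2 ^ k : ℕ) : ℤ) = B := by rw [hBdef]; push_cast; ring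
    have := sum_coeff P P (P * P) (fun q => (2 * (2 ^ k : ℕ) : ℤ) ^ q) (E i j).terms (hlt i j)
    simp only [Int.cast_id] at this
    rw [← this, ← Ex.tval_terms, tval]
    refine congrArg List.sum (List.map_congr_left fun t ht => ?_)
    rw [hidx i j t ht, (hdeg i j t ht).2.2, hb, Int.cast_id, pow_zero, mul_one, pow_add, pow_mul]
    simp [hBdef, hBPdef]
  simp only [hval] at h
  replace h := fun i => And.intro (h i).1 (rowTest_of_rowFast _ _ _ _ _ (h i).2)
  simp only [← hk, show degOf M + 1 = P from rfl, rowTest, List.all_eq_true, List.mem_range,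
    Nat.ble_eq, Nat.blt_eq] at h
  have hdd : ∀ i, 0 < d i := fun i => (h i).1.1.2
  have hdig : ∀ i j, ∀ q < P * P,
      (dig k q ((E i j).eval B BP 0 + (mask k (P * P) : ℤ)).toNat : ℤ) =
        c i j q + ((2 ^ k : ℕ) : ℤ) := fun i j q hq => by
    have e : (2 * (2 ^ k : ℕ) : ℤ) = (2 : ℤ) ^ (k + 1) := by push_cast; ring
    rw [hsum, e]
    exact dig_eq k _ _ (hcb i j) q hq
  have hcoef : ∀ i, ∀ q < P * P,
      ∑ j, (if j = i then 0 else |c i j q| * d j) ≤ c i i q * (d i : ℤ) := by
    intro i q hq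
    have h2 := (h i).2 q hq
    rw [← Fin.sum_univ_def] at h2
    have h3 : ∀ j, (((if j = i then 0 else ((dig k q ((E i j).eval B BP 0 + (mask k (P * P) : ℤ)).toNat
        - 2 ^ k) + (2 ^ k - dig k q ((E i j).eval B BP 0 + (mask k (P * P) : ℤ)).toNat)) * d j) : ℕ) : ℤ)
        = if j = i then 0 else |c i j q| * d j := fun j => by
      split_ifs
      · rfl
      · have hj := hdig i j q hq
        generalize dig k q ((E i j).eval B BP 0 + (mask k (P * P) : ℤ)).toNat = x at hj
        have hs : (((x - 2 ^ k) + (2 ^ k - x) : ℕ) : ℤ) = |c i j q| := by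
          rcases le_total (2 ^ k) x with h4 | h4
          · rw [abs_of_nonneg (by omega)]; omega
          · rw [abs_of_nonpos (by omega)]; omega
        rw [Nat.cast_mul, hs]
    have h5 : ((2 ^ k : ℕ) : ℤ) * d i + ∑ j, (if j = i then 0 else |c i j q| * d j) ≤
        (c i i q + ((2 ^ k : ℕ) : ℤ)) * d i := by
      rw [← hdig i i q hq, ← Finset.sum_congr rfl fun j _ => h3 j]
      exact_mod_cast h2
    linarith
  set mon : ℕ → ℝ := fun q => X ^ (q % P) * Y ^ (q / P)
  set g : Fin m → Fin m → ℝ := fun k l => evalAt (M k l) (V.pt X Y 1) with hg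
  set t : Fin m → Fin m → ℝ := fun i j => ∑ k, (L i k : ℝ) * ∑ l, (L j l : ℝ) * g k l with ht
  have heval : ∀ i j, t i j = ∑ q ∈ Finset.range (P * P), (c i j q : ℝ) * mon q := fun i j => by
    have e : (E i j).eval X Y 0 = t i j := by rw [hE, eval_congr]; simp only [eval_pull, ht, hg]
    have := sum_coeff (R := ℝ) P P (P * P) mon (E i j).terms (hlt i j)
    rw [← e, ← Ex.tval_terms, tval, ← this]
    refine congrArg List.sum (List.map_congr_left fun u hu => ?_)
    obtain ⟨u1, u2, u3⟩ := hdeg i j u hu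
    simp only [mon, hidx i j u hu, u3, Nat.add_mul_mod_self_left, Nat.mod_eq_of_lt u1,
      Nat.add_mul_div_left _ _ (show 0 < P by omega), Nat.div_eq_of_lt u1, zero_add, pow_zero, mul_one]
  have hsym : ∀ i j, t i j = t j i := fun i j => by
    simp only [ht, Finset.mul_sum]
    rw [Finset.sum_comm]
    refine Finset.sum_congr rfl fun k _ => Finset.sum_congr rfl fun l _ => ?_
    rw [show g l k = g k l from hs _ _ _]
    ring
  have hdom : ∀ i, ∑ j, (if j = i then 0 else |t i j| * (d j : ℝ)) ≤ t i i * (d i : ℝ) := by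
    intro i
    have hm : ∀ q, 0 ≤ mon q := fun q => by positivity
    calc ∑ j, (if j = i then 0 else |t i j| * (d j : ℝ))
        ≤ ∑ j, ∑ q ∈ Finset.range (P * P),
            ((if j = i then 0 else |c i j q| * d j : ℤ) : ℝ) * mon q := by
          refine Finset.sum_le_sum fun j _ => ?_
          split_ifs with hji
          · simp
          · rw [heval]
            have hdj : (0 : ℝ) ≤ d j := Nat.cast_nonneg _
            refine (mul_le_mul_of_nonneg_right (Finset.abs_sum_le_sum_abs _ _) hdj).trans (le_of_eq ?_)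
            rw [Finset.sum_mul]
            refine Finset.sum_congr rfl fun q _ => ?_
            rw [abs_mul, abs_of_nonneg (hm q)]
            push_cast
            ring
      _ = ∑ q ∈ Finset.range (P * P),
            ((∑ j, (if j = i then 0 else |c i j q| * d j) : ℤ) : ℝ) * mon q := by
          rw [Finset.sum_comm]
          simp only [Int.cast_sum, Finset.sum_mul]
      _ ≤ ∑ q ∈ Finset.range (P * P), ((c i i q * d i : ℤ) : ℝ) * mon q :=
          Finset.sum_le_sum fun q hq => mul_le_mul_of_nonneg_right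
            (by exact_mod_cast hcoef i q (Finset.mem_range.1 hq)) (hm q)
      _ = t i i * (d i : ℝ) := by
          rw [heval, Finset.sum_mul]
          refine Finset.sum_congr rfl fun q _ => ?_
          push_cast
          ring
  have hlow : ∀ i j, i < j → L i j = 0 := fun i j => (h i).1.2 j
  set A : Matrix (Fin m) (Fin m) ℝ := Matrix.of fun i k => (L i k : ℝ) with hA
  have hdet : IsUnit A.det := by
    rw [Matrix.det_of_isLowerTriangular A (fun i j hij => by
      simpa [hA] using hlow i j hij), isUnit_iff_ne_zero]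
    exact Finset.prod_ne_zero_iff.2 fun i _ => by simpa [hA] using (h i).1.1.1
  set η := ξ ᵥ* A⁻¹ with hη
  have hξ : ξ = η ᵥ* A := by
    rw [hη, Matrix.vecMul_vecMul, Matrix.nonsing_inv_mul A hdet, Matrix.vecMul_one]
  refine le_of_le_of_eq (form_nonneg_of_dominant (d := fun i => (d i : ℝ))
    (fun i => by exact_mod_cast hdd i) hsym hdom η) ?_
  have e : ∀ k, ξ k = ∑ i, η i * (L i k : ℝ) := fun k => by
    rw [hξ]; simp [Matrix.vecMul, dotProduct, hA]
  simp only [e, Finset.sum_mul, Finset.mul_sum, ht]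
  rw [show ∀ F : Fin m → Fin m → Fin m → Fin m → ℝ,
      ∑ i, ∑ j, ∑ k, ∑ l, F i j k l = ∑ k, ∑ l, ∑ i, ∑ j, F i j k l from fun F => by
    calc ∑ i, ∑ j, ∑ k, ∑ l, F i j k l = ∑ i, ∑ k, ∑ j, ∑ l, F i j k l :=
          Finset.sum_congr rfl fun i _ => Finset.sum_comm
      _ = ∑ k, ∑ i, ∑ j, ∑ l, F i j k l := Finset.sum_comm
      _ = ∑ k, ∑ i, ∑ l, ∑ j, F i j k l :=
          Finset.sum_congr rfl fun k _ => Finset.sum_congr rfl fun i _ => Finset.sum_comm
      _ = ∑ k, ∑ l, ∑ i, ∑ j, F i j k l := Finset.sum_congr rfl fun k _ => Finset.sum_comm]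
  refine Finset.sum_congr rfl fun k _ => Finset.sum_congr rfl fun l _ => ?_
  rw [Finset.sum_comm]
  refine Finset.sum_congr rfl fun i _ => Finset.sum_congr rfl fun j _ => ?_
  simp only [hg]
  ring

/-- The form of `M` is nonnegative on the closed cone `V`. -/
def PosOn {m : ℕ} (M : Fin m → Fin m → Ex) (V : Tri) : Prop :=
  ∀ a b c : ℝ, 0 ≤ a → 0 ≤ b → 0 ≤ c → ∀ ξ : Fin m → ℝ,
    0 ≤ ∑ k, ∑ l, ξ k * evalAt (M k l) (V.pt a b c) * ξ l

/-- A checked matrix gives a nonnegative form on the whole closed cone. -/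
theorem posOn_of_checkDD {m : ℕ} {M : Fin m → Fin m → Ex} {L : Fin m → Fin m → ℤ} {d : Fin m → ℕ}
    {V : Tri} {deg : ℕ} (w : Fin m → ℕ) (hs : ∀ k l p, evalAt (M k l) p = evalAt (M l k) p)
    (hhom : ∀ k l (r : ℝ) (p : ℝ × ℝ × ℝ),
      r ^ w k * r ^ w l * evalAt (M k l) (r * p.1, r * p.2.1, r * p.2.2) = r ^ deg * evalAt (M k l) p)
    (h : checkDD M L d V = true) : PosOn M V := by
  intro a b c ha hb hc ξ
  have hpos : ∀ s, 0 < s → 0 ≤ ∑ k, ∑ l, ξ k * evalAt (M k l) (V.pt a b s) * ξ l := by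
    intro s hs0
    have h0 := dd_chart hs h (div_nonneg ha hs0.le) (div_nonneg hb hs0.le)
      fun k => ξ k / s ^ w k
    have e : V.pt a b s = (s * (V.pt (a / s) (b / s) 1).1, s * (V.pt (a / s) (b / s) 1).2.1,
        s * (V.pt (a / s) (b / s) 1).2.2) := by
      simp only [Tri.pt, Prod.mk.injEq]
      refine ⟨?_, ?_, ?_⟩ <;> field_simp
    have e2 : ∀ k l, ξ k * evalAt (M k l) (V.pt a b s) * ξ l
        = s ^ deg * (ξ k / s ^ w k * evalAt (M k l) (V.pt (a / s) (b / s) 1) * (ξ l / s ^ w l)) :=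
      fun k l => by
        rw [e]
        have := hhom k l s (V.pt (a / s) (b / s) 1)
        field_simp
        linear_combination (ξ k * ξ l) * this
    simp only [e2, ← Finset.mul_sum]
    exact mul_nonneg (pow_nonneg hs0.le _) h0
  rcases lt_or_eq_of_le hc with hc' | rfl
  · exact hpos c hc'
  have hev : ∀ e : Ex, Continuous fun p : ℝ × ℝ × ℝ => evalAt e p := fun e => by
    unfold evalAt
    induction e with
    | num k => simpa [Ex.eval] using continuous_const
    | x => exact continuous_fst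
    | y => exact continuous_snd.fst
    | z => exact continuous_snd.snd
    | add e f he hf => simp only [Ex.eval]; exact he.add hf
    | sub e f he hf => simp only [Ex.eval]; exact he.sub hf
    | mul e f he hf => simp only [Ex.eval]; exact he.mul hf
    | pow e n he => simp only [Ex.eval]; exact he.pow n
  have hcont : Continuous fun s : ℝ =>
      ∑ k, ∑ l, ξ k * evalAt (M k l) (V.pt a b s) * ξ l := by
    refine continuous_finsetSum _ fun k _ => continuous_finsetSum _ fun l _ =>
      (continuous_const.mul ((hev _).comp ?_)).mul continuous_const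
    unfold Tri.pt
    fun_prop
  exact ge_of_tendsto ((hcont.tendsto 0).mono_left
      (nhdsWithin_le_nhds : nhdsWithin (0 : ℝ) (Set.Ioi 0) ≤ nhds 0))
    (Filter.eventually_of_mem self_mem_nhdsWithin fun s (hs0 : (0 : ℝ) < s) => hpos s hs0)

/-- A tree of edge bisections; a leaf holds the congruence and the weights. -/
inductive Tree (m : ℕ) : Type where
  | leaf (L : Fin m → Fin m → ℤ) (d : Fin m → ℕ)
  | node (r : ℕ) (t₁ t₂ : Tree m)

/-- The vertices rotated so that the edge to bisect comes first. -/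
def Tri.rot (V : Tri) : ℕ → Tri
  | 0 => V
  | 1 => ⟨V.p1, V.p2, V.p0⟩
  | _ => ⟨V.p2, V.p0, V.p1⟩

/-- The midpoint of the first edge. -/
def Tri.mid (V : Tri) : ℤ × ℤ × ℤ :=
  ((V.p0.1 + V.p1.1) / 2, (V.p0.2.1 + V.p1.2.1) / 2, (V.p0.2.2 + V.p1.2.2) / 2)

/-- The midpoint is exact. -/
def Tri.even (V : Tri) : Bool :=
  decide (2 * ((V.p0.1 + V.p1.1) / 2) = V.p0.1 + V.p1.1) &&
    decide (2 * ((V.p0.2.1 + V.p1.2.1) / 2) = V.p0.2.1 + V.p1.2.1) &&
    decide (2 * ((V.p0.2.2 + V.p1.2.2) / 2) = V.p0.2.2 + V.p1.2.2)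

/-- The test on all the leaves. -/
noncomputable def checkTree {m : ℕ} (M : Fin m → Fin m → Ex) : Tree m → Tri → Bool
  | .leaf L d, V => checkDD M L d V
  | .node r t₁ t₂, V => (V.rot r).even &&
      checkTree M t₁ ⟨(V.rot r).p0, (V.rot r).mid, (V.rot r).p2⟩ &&
      checkTree M t₂ ⟨(V.rot r).mid, (V.rot r).p1, (V.rot r).p2⟩

theorem posOn_bisect {m : ℕ} {M : Fin m → Fin m → Ex} {V : Tri} (he : V.even = true)
    (h₁ : PosOn M ⟨V.p0, V.mid, V.p2⟩) (h₂ : PosOn M ⟨V.mid, V.p1, V.p2⟩) : PosOn M V := by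
  intro a b c ha hb hc ξ
  simp only [Tri.even, Bool.and_eq_true, decide_eq_true_eq] at he
  obtain ⟨⟨e1, e2⟩, e3⟩ := he
  replace e1 : 2 * (((V.p0.1 + V.p1.1) / 2 : ℤ) : ℝ) = V.p0.1 + V.p1.1 := by exact_mod_cast e1
  replace e2 : 2 * (((V.p0.2.1 + V.p1.2.1) / 2 : ℤ) : ℝ) = V.p0.2.1 + V.p1.2.1 := by
    exact_mod_cast e2
  replace e3 : 2 * (((V.p0.2.2 + V.p1.2.2) / 2 : ℤ) : ℝ) = V.p0.2.2 + V.p1.2.2 := by
    exact_mod_cast e3
  rcases le_total b a with hab | hab
  · have h := h₁ (a - b) (2 * b) c (by linarith) (by linarith) hc ξ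
    have e : Tri.pt ⟨V.p0, V.mid, V.p2⟩ (a - b) (2 * b) c = V.pt a b c := by
      simp only [Tri.pt, Tri.mid, Prod.mk.injEq]
      exact ⟨by linear_combination b * e1, by linear_combination b * e2, by linear_combination b * e3⟩
    rwa [e] at h
  · have h := h₂ (2 * a) (b - a) c (by linarith) (by linarith) hc ξ
    have e : Tri.pt ⟨V.mid, V.p1, V.p2⟩ (2 * a) (b - a) c = V.pt a b c := by
      simp only [Tri.pt, Tri.mid, Prod.mk.injEq]
      exact ⟨by linear_combination a * e1, by linear_combination a * e2, by linear_combination a * e3⟩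
    rwa [e] at h

theorem posOn_rot {m : ℕ} {M : Fin m → Fin m → Ex} {V : Tri} (r : ℕ)
    (h : PosOn M (V.rot r)) : PosOn M V := by
  intro a b c ha hb hc ξ
  match r with
  | 0 => exact h a b c ha hb hc ξ
  | 1 =>
    have e : (V.rot 1).pt b c a = V.pt a b c := by
      simp only [Tri.rot, Tri.pt, Prod.mk.injEq]; refine ⟨?_, ?_, ?_⟩ <;> ring
    exact e ▸ h b c a hb hc ha ξ
  | r + 2 =>
    have e : (V.rot (r + 2)).pt c a b = V.pt a b c := by
      simp only [Tri.rot, Tri.pt, Prod.mk.injEq]; refine ⟨?_, ?_, ?_⟩ <;> ring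
    exact e ▸ h c a b hc ha hb ξ

/-- A checked tree gives a nonnegative form on its root. -/
theorem posOn_of_checkTree {m : ℕ} {M : Fin m → Fin m → Ex} {deg : ℕ} (w : Fin m → ℕ)
    (hs : ∀ k l p, evalAt (M k l) p = evalAt (M l k) p)
    (hhom : ∀ k l (r : ℝ) (p : ℝ × ℝ × ℝ),
      r ^ w k * r ^ w l * evalAt (M k l) (r * p.1, r * p.2.1, r * p.2.2) = r ^ deg * evalAt (M k l) p) :
    ∀ (t : Tree m) (V : Tri), checkTree M t V = true → PosOn M V
  | .leaf _ _, _, h => posOn_of_checkDD w hs hhom h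
  | .node r t₁ t₂, _, h => by
    simp only [checkTree, Bool.and_eq_true] at h
    exact posOn_rot r (posOn_bisect h.1.1 (posOn_of_checkTree w hs hhom t₁ _ h.1.2)
      (posOn_of_checkTree w hs hhom t₂ _ h.2))

end Vale.Agent.P252.PolyPSD
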