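import Vale.Agent.P252.Cert.DDCheck

/-!
# Positive definiteness of every coefficient matrix, on natural numbers only

`checkTree` proves that a symmetric matrix of forms of degree `D` is positive semidefinite on a
triangle cone: on each leaf of a tree of edge bisections every coefficient matrix of the pulled
back form (one integer matrix for each monomial in the two weights) is zero or passes an
elimination with downward rounding. No certificate is needed on a leaf.

The kernel adds, multiplies and divides natural numbers in one step each and integers in several,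
so everything is stored in natural numbers: the coefficients shifted by an offset, the values as
residues modulo a power of two, the digits shifted by half their range.
-/

namespace Vale.Agent.P252.PDCoef

open Finset Vale.Agent.P100T.PosCheck Vale.Agent.P252.PolyPSD

/-! ### Recursion helpers -/

/-- Continue with the value of `n`; the kernel reduces `n` to a literal first. -/
noncomputable def forceN (n : ℕ) (f : ℕ → Bool) : Bool :=
  Nat.rec (f 0) (fun p _ => f (Nat.succ p)) n

/-- Continue with the values of a list. -/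
noncomputable def forceL (l : List ℕ) : (List ℕ → Bool) → Bool :=
  List.rec (fun f => f []) (fun a _ r f => forceN a fun a => r fun l => f (a :: l)) l

/-- Continue with the values of a list of lists. -/
noncomputable def forceLL (l : List (List ℕ)) : (List (List ℕ) → Bool) → Bool :=
  List.rec (fun f => f []) (fun a _ r f => forceL a fun a => r fun l => f (a :: l)) l

/-- The map of a list. -/
noncomputable def lmap {α β : Type} (f : α → β) (l : List α) : List β :=
  List.rec [] (fun a _ r => f a :: r) l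

/-- A test on every member of a list. -/
noncomputable def lall {α : Type} (f : α → Bool) (l : List α) : Bool :=
  List.rec true (fun a _ r => and (f a) r) l

/-- The scalar product. -/
noncomputable def dot (x : List ℕ) : List ℕ → ℕ :=
  List.rec (fun _ => 0)
    (fun a _ r y => List.rec 0 (fun b y' _ => Nat.add (Nat.mul a b) (r y')) y) x

/-- The sum. -/
noncomputable def lsum (l : List ℕ) : ℕ := List.rec 0 (fun a _ r => Nat.add a r) l

/-! ### Elimination

An upper triangle is a list of rows, the row `i` holding the entries `(i, j)`, `j ≥ i`, each shifted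
by the offset `O`. -/

/-- One updated row: `u + ⌊(K p - x y) / p⌋ - K` with `R = K p + H X - H H`. -/
noncomputable def updRow (H O' K p R X : ℕ) (row : List ℕ) : List ℕ → List ℕ :=
  List.rec (fun _ => [])
    (fun u _ r v => List.rec [] (fun Y v' _ =>
      Nat.sub (Nat.add u (Nat.div
        (Nat.sub (Nat.add R (Nat.mul H (Nat.sub Y O'))) (Nat.mul X (Nat.sub Y O'))) p)) K :: r v') v) row

/-- Lower the diagonal entry, the first of the row, by `s`. -/
noncomputable def lowerHead (s : ℕ) (row : List ℕ) : List ℕ :=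
  List.rec [] (fun u l _ => Nat.sub u s :: l) row

/-- All rows updated; `v` is the tail of the pivot row. -/
noncomputable def schur (H O' K Kp p s : ℕ) (rows : List (List ℕ)) : List ℕ → List (List ℕ) :=
  List.rec (fun _ => [])
    (fun row _ r v => List.rec [] (fun X v' _ =>
      lowerHead s (updRow H O' K p
        (Nat.sub (Nat.add Kp (Nat.mul H (Nat.sub X O'))) (Nat.mul H H)) (Nat.sub X O') row (X :: v'))
        :: r v') v) rows

/-- Elimination with downward rounding: a positive pivot and small entries in its row, at each of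
the `n` steps. -/
noncomputable def pd (H O' K : ℕ) (n : ℕ) : List (List ℕ) → Bool :=
  Nat.rec (fun rows => List.rec true (fun _ _ _ => false) rows)
    (fun s r rows => List.rec false (fun row rest _ => List.rec false (fun a v _ =>
      and (Nat.blt H (Nat.sub a O')) (and (Nat.blt (Nat.sub a O') (Nat.add H H))
        (and (lall (fun Y => and (Nat.blt O' Y) (Nat.blt (Nat.sub Y O') (Nat.add H H))) v)
          (r (schur H O' K (Nat.mul K (Nat.sub (Nat.sub a O') H)) (Nat.sub (Nat.sub a O') H)
            (Nat.succ s) rest v))))) row) rows) n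

/-! ### The values -/

/-- The monomials of degree `D`. -/
def monExps (D : ℕ) : List (ℕ × ℕ × ℕ) :=
  (List.range (D + 1)).flatMap fun i => (List.range (D + 1 - i)).map fun j => (i, j, D - i - j)

/-- The residue of the negative, `w` being `W - 1`. -/
noncomputable def negRes (W w a : ℕ) : ℕ := Nat.land (Nat.sub W a) w

/-- The residue of an integer. -/
def res (W : ℕ) (v : ℤ) : ℕ := (v % (W : ℤ)).toNat

/-- The residues of `X ^ 0, …, X ^ (n - 1)`. -/
noncomputable def pows (w X : ℕ) (n : ℕ) : List ℕ :=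
  Nat.rec (fun _ => []) (fun _ r a => a :: r (Nat.land (Nat.mul a X) w)) n 1

/-- The residues of the monomials. -/
noncomputable def monVals (w D X Y Z : ℕ) (f : List ℕ → Bool) : Bool :=
  forceL (pows w X (D + 1)) fun px => forceL (pows w Y (D + 1)) fun py =>
    forceL (pows w Z (D + 1)) fun pz =>
      forceL (lmap (fun t => Nat.land (Nat.mul (Nat.land (Nat.mul (px.getD t.1 0) (py.getD t.2.1 0)) w)
        (pz.getD t.2.2 0)) w) (monExps D)) f

/-- Sum of the absolute values of a coordinate. -/
def triNorm (V : Tri) : ℕ :=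
  max 1 (max (lnorm V.p0.1 V.p1.1 V.p2.1)
    (max (lnorm V.p0.2.1 V.p1.2.1 V.p2.2.1) (lnorm V.p0.2.2 V.p1.2.2 V.p2.2.2)))

/-- The first `n` digits of the packed row all pass; the digits above hold zero matrices. -/
noncomputable def digitsOK (m k H O' K : ℕ) (rest : ℕ) (n : ℕ) : List (List ℕ) → Bool :=
  Nat.rec (fun us => lall (lall fun u => Nat.beq u rest) us) (fun _ r us =>
    and (pd H O' K m (lmap (lmap fun u => Nat.add (Nat.land u (2 ^ (k + 1) - 1)) O') us))
      (r (lmap (lmap fun u => Nat.shiftRight u (k + 1)) us))) n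

/-- Row `P - n` of the digits has `n` places inside the triangle. -/
noncomputable def rowsOK (m k H O' K P : ℕ) (n : ℕ) : List (List ℕ) → Bool :=
  Nat.rec (fun _ => true) (fun j r us =>
    and (forceLL (lmap (lmap fun u => Nat.land u (2 ^ ((k + 1) * P) - 1)) us)
        (digitsOK m k H O' K (mask k (P - (j + 1))) (j + 1)))
      (forceLL (lmap (lmap fun u => Nat.shiftRight u ((k + 1) * P)) us) r)) n

/-- One leaf. `M` is an upper triangle; an entry lists the coefficients of `monExps D` plus `off`,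
and `nb` bounds the sums of their absolute values. -/
noncomputable def checkLeaf (m nb off D : ℕ) (M : List (List (List ℕ))) (V : Tri) : Bool :=
  forceN (Nat.log2 (nb * triNorm V ^ D) + 1) fun k =>
    forceN (2 ^ ((k + 1) * ((D + 1) * (D + 1)))) fun W =>
      forceN (W - 1) fun w =>
        forceN (2 ^ (k + 1)) fun B =>
          forceN (B ^ (D + 1)) fun BP =>
            forceN (res W (V.p0.1 * B + V.p1.1 * BP + V.p2.1)) fun X =>
              forceN (res W (V.p0.2.1 * B + V.p1.2.1 * BP + V.p2.2.1)) fun Y =>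
                forceN (res W (V.p0.2.2 * B + V.p1.2.2 * BP + V.p2.2.2)) fun Z =>
                  monVals w D X Y Z fun v =>
                    forceN (Nat.add (negRes W w (Nat.land (Nat.mul off (lsum v)) w))
                      (mask k ((D + 1) * (D + 1)))) fun c =>
                      forceLL (lmap (lmap fun e => Nat.land (Nat.add (dot e v) c) w) M) fun us =>
                        forceN (2 ^ k) fun H => forceN (8 * (m + 2) ^ 2 * H * H) fun O' =>
                          forceN (2 * H * H + 1) fun K =>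
                            rowsOK m k H O' K (D + 1) (D + 1) us

/-- The shape of a block, and its bound. -/
noncomputable def blockOK (m nb off D : ℕ) (M : List (List (List ℕ))) : Bool :=
  Nat.beq M.length m &&
    (List.range m).all fun i => Nat.beq (M.getD i []).length (m - i) &&
      (M.getD i []).all fun e => Nat.beq e.length (monExps D).length &&
        Nat.ble (lsum (lmap (fun c => Nat.add (Nat.sub c off) (Nat.sub off c)) e)) nb

/-! ### The forms -/

/-- `c x ^ i y ^ j z ^ h`. -/
def monEx (c : ℤ) (t : ℕ × ℕ × ℕ) : Ex :=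
  .mul (.num c) (.mul (.pow .x t.1) (.mul (.pow .y t.2.1) (.pow .z t.2.2)))

/-- An entry as an expression. -/
def exOf (off D : ℕ) (e : List ℕ) : Ex :=
  sumEx (List.zipWith (fun (c : ℕ) t => monEx ((c : ℤ) - (off : ℤ)) t) e (monExps D))

/-- The stored entry at a place. -/
def entry (M : List (List (List ℕ))) (i j : ℕ) : List ℕ :=
  (M.getD (min i j) []).getD (max i j - min i j) []

/-- The symmetric matrix stored in an upper triangle. -/
def matEx (m off D : ℕ) (M : List (List (List ℕ))) : Fin m → Fin m → Ex := fun i j =>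
  exOf off D (entry M i j)

/-! ### Soundness of the helpers -/

theorem forceN_eq (n : ℕ) (f : ℕ → Bool) : forceN n f = f n := by
  cases n <;> rfl

theorem forceL_eq : ∀ (l : List ℕ) (f : List ℕ → Bool), forceL l f = f l
  | [], _ => rfl
  | a :: l, f => by
    show (forceN a fun a => forceL l fun l => f (a :: l)) = f (a :: l)
    rw [forceN_eq, forceL_eq l]

theorem forceLL_eq : ∀ (l : List (List ℕ)) (f : List (List ℕ) → Bool), forceLL l f = f l
  | [], _ => rfl
  | a :: l, f => by
    show (forceL a fun a => forceLL l fun l => f (a :: l)) = f (a :: l)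
    rw [forceL_eq, forceLL_eq l]

theorem lmap_eq {α β : Type} (f : α → β) : ∀ l : List α, lmap f l = l.map f
  | [] => rfl
  | a :: l => by
    show f a :: lmap f l = _
    rw [lmap_eq f l, List.map_cons]

theorem lall_eq {α : Type} (f : α → Bool) : ∀ l : List α, lall f l = l.all f
  | [] => rfl
  | a :: l => by
    show (f a && lall f l) = _
    rw [lall_eq f l, List.all_cons]

theorem lsum_eq : ∀ l : List ℕ, lsum l = l.sum
  | [] => rfl
  | a :: l => by
    show a + lsum l = _
    rw [lsum_eq l, List.sum_cons]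

theorem dot_eq : ∀ x y : List ℕ, dot x y = (List.zipWith (· * ·) x y).sum
  | [], _ => rfl
  | a :: x, [] => rfl
  | a :: x, b :: y => by
    show a * b + dot x y = _
    rw [dot_eq x y, List.zipWith_cons_cons, List.sum_cons]

/-- An upper triangle. -/
def upper {α : Type} : ℕ → (ℕ → ℕ → α) → List (List α)
  | 0, _ => []
  | n + 1, f => (List.range (n + 1)).map (f 0) :: upper n fun i j => f (i + 1) (j + 1)

theorem map_upper {α β : Type} (g : α → β) : ∀ (n : ℕ) (f : ℕ → ℕ → α),
    (upper n f).map (List.map g) = upper n fun i j => g (f i j)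
  | 0, _ => rfl
  | n + 1, f => by
    simp only [upper, List.map_cons, List.map_map, Function.comp_def, map_upper g n]

theorem mem_upper {α : Type} : ∀ (n : ℕ) (f : ℕ → ℕ → α) (i j : ℕ), i ≤ j → j < n →
    ∃ row ∈ upper n f, f i j ∈ row
  | n + 1, f, 0, j, _, hj =>
    ⟨_, List.mem_cons_self .., List.mem_map.2 ⟨j, List.mem_range.2 hj, rfl⟩⟩
  | n + 1, f, i + 1, j, hij, hj => by
    obtain ⟨j, rfl⟩ : ∃ k, j = k + 1 := ⟨j - 1, by omega⟩
    obtain ⟨row, hr, hm⟩ := mem_upper n (fun i j => f (i + 1) (j + 1)) i j (by omega) (by omega)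
    exact ⟨row, List.mem_cons_of_mem _ hr, hm⟩

theorem eq_upper {α : Type} (d : α) : ∀ (n : ℕ) (M : List (List α)), M.length = n →
    (∀ i < n, (M.getD i []).length = n - i) →
      M = upper n fun i j => (M.getD i []).getD (j - i) d
  | 0, M, h, _ => List.length_eq_zero_iff.1 h
  | n + 1, [], h, _ => by simp at h
  | n + 1, r :: M, h, hl => by
    have ih := eq_upper d n M (by simpa using h) fun i hi => by
      have := hl (i + 1) (by omega)
      simpa using this
    have h0 : r.length = n + 1 := by simpa using hl 0 (by omega)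
    rw [upper]
    congr 1
    · refine List.ext_getElem (by simp [h0]) fun j h1 h2 => ?_
      simp [List.getD_eq_getElem?_getD, List.getElem?_eq_getElem h1]
    · simpa [Nat.succ_sub_succ_eq_sub] using ih

theorem updRow_map (H O' K p R X : ℕ) : ∀ (n : ℕ) (u y : ℕ → ℕ),
    updRow H O' K p R X ((List.range n).map u) ((List.range n).map y) =
      (List.range n).map fun j => u j +
        (R + H * (y j - O') - X * (y j - O')) / p - K
  | 0, _, _ => rfl
  | n + 1, u, y => by
    simp only [List.range_succ_eq_map, List.map_cons, List.map_map, Function.comp_def]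
    show (u 0 + (R + H * (y 0 - O') - X * (y 0 - O')) / p - K) ::
        updRow H O' K p R X ((List.range n).map fun j => u (j + 1))
          ((List.range n).map fun j => y (j + 1)) = _
    rw [updRow_map H O' K p R X n]

theorem schur_upper (H O' K Kp p s : ℕ) : ∀ (n : ℕ) (f : ℕ → ℕ → ℕ) (y : ℕ → ℕ),
    schur H O' K Kp p s (upper n f) ((List.range n).map y) = upper n fun i j =>
      (f i j + (Kp + H * (y i - O') - H * H + H * (y j - O') - (y i - O') * (y j - O')) / p - K) -
        if i = j then s else 0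
  | 0, _, _ => rfl
  | n + 1, f, y => by
    simp only [upper]
    rw [show (List.range (n + 1)).map y = y 0 :: (List.range n).map fun j => y (j + 1) by
      simp [List.range_succ_eq_map, Function.comp_def]]
    show lowerHead s (updRow H O' K p (Kp + H * (y 0 - O') - H * H) (y 0 - O')
        ((List.range (n + 1)).map (f 0)) (y 0 :: (List.range n).map fun j => y (j + 1))) ::
      schur H O' K Kp p s (upper n fun i j => f (i + 1) (j + 1))
        ((List.range n).map fun j => y (j + 1)) = _
    rw [schur_upper H O' K Kp p s n]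
    rw [show y 0 :: (List.range n).map (fun j => y (j + 1)) = (List.range (n + 1)).map y by
      simp [List.range_succ_eq_map, Function.comp_def], updRow_map]
    congr 1
    · simp only [List.range_succ_eq_map, List.map_cons, List.map_map, Function.comp_def]
      show (_ - s) :: _ = _
      simp
    · congr 1
      funext i j
      simp [Nat.add_right_cancel_iff]

/-! ### Soundness of the elimination -/

/-- One updated entry, in integers. -/
theorem upd_cast {H O' K p : ℕ} {x y a : ℤ} {s : ℕ} (hp : 0 < p) (hK : K = 2 * H * H + 1)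
    (hx : |x| < H) (hy : |y| < H) (ha : |a| + (H : ℤ) * H + (s : ℤ) < (H : ℤ) + O')
    {u X Y : ℕ} (hu : (u : ℤ) = a + H + O') (hX : (X : ℤ) = x + H + O') (hY : (Y : ℤ) = y + H + O') :
    (((u + (K * p + H * (X - O') - H * H + H * (Y - O') - (X - O') * (Y - O')) / p - K) - s : ℕ) : ℤ) =
      a + (-(x * y)) / (p : ℤ) - s + H + O' := by
  obtain ⟨hx1, hx2⟩ := abs_lt.1 hx
  obtain ⟨hy1, hy2⟩ := abs_lt.1 hy
  obtain ⟨ha1, ha2⟩ := abs_le.1 (le_refl |a|)
  have hH0 : (1 : ℤ) ≤ H := by omega
  have hX' : O' ≤ X := by omega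
  have hY' : O' ≤ Y := by omega
  have hxy : |x * y| ≤ (H : ℤ) * H := by
    rw [abs_mul]
    exact mul_le_mul hx.le hy.le (abs_nonneg _) (by positivity)
  obtain ⟨hxy1, hxy2⟩ := abs_le.1 hxy
  have hKp : (H : ℤ) * H + H * H < (K : ℤ) * p := by
    have h1 : (1 : ℤ) ≤ p := by exact_mod_cast hp
    have h2 : (K : ℤ) = 2 * H * H + 1 := by exact_mod_cast hK
    nlinarith
  have h1 : H * H ≤ K * p + H * (X - O') := by
    have : ((H * H : ℕ) : ℤ) ≤ ((K * p : ℕ) : ℤ) := by push_cast; nlinarith
    have : H * H ≤ K * p := by exact_mod_cast this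
    omega
  have h2 : (X - O') * (Y - O') ≤ K * p + H * (X - O') - H * H + H * (Y - O') := by
    zify [hX', hY', h1]
    rw [hX, hY]
    nlinarith
  have hN : ((K * p + H * (X - O') - H * H + H * (Y - O') - (X - O') * (Y - O') : ℕ) : ℤ) =
      -(x * y) + (p : ℤ) * K := by
    rw [Nat.cast_sub h2]
    push_cast [Nat.cast_sub h1, Nat.cast_sub hX', Nat.cast_sub hY']
    rw [hX, hY]
    ring
  have hdiv : (((K * p + H * (X - O') - H * H + H * (Y - O') - (X - O') * (Y - O')) / p : ℕ) : ℤ) =
      (-(x * y)) / (p : ℤ) + K := by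
    rw [Int.natCast_div, hN, Int.add_mul_ediv_left _ _ (by exact_mod_cast hp.ne')]
  have hq : -((H : ℤ) * H) ≤ (-(x * y)) / (p : ℤ) := by
    rw [Int.le_ediv_iff_mul_le (by exact_mod_cast hp)]
    have h1 : (1 : ℤ) ≤ p := by exact_mod_cast hp
    nlinarith
  generalize (K * p + H * (X - O') - H * H + H * (Y - O') - (X - O') * (Y - O')) / p = q at hdiv
  generalize (-(x * y)) / (p : ℤ) = r at hdiv hq
  omega

/-- Elimination with downward rounding certifies a positive semidefinite matrix. -/
theorem pd_sound {H O' K : ℕ} (hK : K = 2 * H * H + 1) : ∀ (n : ℕ) (f : ℕ → ℕ → ℕ) (a : ℕ → ℕ → ℤ)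
    (B : ℤ), (∀ i j, a i j = a j i) → (∀ i j, i ≤ j → j < n → (f i j : ℤ) = a i j + H + O') →
    (∀ i j, i ≤ j → j < n → |a i j| ≤ B) →
    B + (n : ℤ) * ((H : ℤ) * H + n + 1) ≤ O' → pd H O' K n (upper n f) = true →
    ∀ η : ℕ → ℝ, 0 ≤ ∑ i ∈ Finset.range n, ∑ j ∈ Finset.range n, η i * (a i j : ℝ) * η j
  | 0, _, _, _, _, _, _, _, _, _ => by simp
  | n + 1, f, a, B, hs, hf, hB, hO, h, η => by
    rw [upper, List.range_succ_eq_map, List.map_cons, List.map_map] at h
    change (Nat.blt H (f 0 0 - O') && (Nat.blt (f 0 0 - O') (H + H) &&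
      (lall (fun Y => Nat.blt O' Y && Nat.blt (Y - O') (H + H))
          ((List.range n).map (f 0 ∘ Nat.succ)) &&
        pd H O' K n (schur H O' K (K * (f 0 0 - O' - H)) (f 0 0 - O' - H) (n + 1)
          (upper n fun i j => f (i + 1) (j + 1)) ((List.range n).map (f 0 ∘ Nat.succ)))))) = true at h
    simp only [Bool.and_eq_true, Nat.blt_eq, lall_eq, List.all_eq_true, List.mem_map,
      List.mem_range, forall_exists_index, and_imp, forall_apply_eq_imp_iff₂,
      Function.comp_apply, Nat.succ_eq_add_one] at h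
    obtain ⟨h1, h2, h3, h4⟩ := h
    rw [show f 0 ∘ Nat.succ = fun j => f 0 (j + 1) from rfl, schur_upper] at h4
    set p := f 0 0 - O' - H with hp
    have hp0 : 0 < p := by omega
    have hpa : (p : ℤ) = a 0 0 := by
      have := hf 0 0 le_rfl (by omega)
      omega
    set y : ℕ → ℤ := fun j => a 0 (j + 1)
    have hy : ∀ j < n, |y j| < H := fun j hj => by
      have := hf 0 (j + 1) (by omega) (by omega)
      obtain ⟨g1, g2⟩ := h3 j hj
      rw [abs_lt]
      constructor <;> simp only [y] <;> omega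
    set a' : ℕ → ℕ → ℤ := fun i j =>
      a (i + 1) (j + 1) + (-(y i * y j)) / (p : ℤ) - if i = j then ((n : ℤ) + 1) else 0 with ha'
    have hd : ∀ i j, i ≤ j → j < n → |(-(y i * y j)) / (p : ℤ)| ≤ (H : ℤ) * H := fun i j hij hj => by
      have hh : |y i * y j| ≤ (H : ℤ) * H := by
        rw [abs_mul]
        exact mul_le_mul (hy i (by omega)).le (hy j hj).le (abs_nonneg _) (by positivity)
      have hP : (1 : ℤ) ≤ p := by exact_mod_cast hp0
      obtain ⟨e1, e2⟩ := abs_le.1 hh
      rw [abs_le]
      constructor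
      · rw [Int.le_ediv_iff_mul_le (by omega)]
        nlinarith
      · refine Int.ediv_le_of_le_mul (by omega) ?_
        nlinarith
    have ih := pd_sound hK n _ a' (B + ((H : ℤ) * H + n + 1)) (fun i j => by
        simp only [ha', hs (i + 1) (j + 1), mul_comm (y i) (y j), eq_comm (a := i) (b := j)])
      (fun i j hij hj => by
        have hB' := hB (i + 1) (j + 1) (by omega) (by omega)
        have e := upd_cast (H := H) (O' := O') (K := K) (s := if i = j then n + 1 else 0) hp0 hK
          (hy i (by omega)) (hy j hj) (a := a (i + 1) (j + 1)) ?_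
          (hf (i + 1) (j + 1) (by omega) (by omega)) (hf 0 (i + 1) (by omega) (by omega))
          (hf 0 (j + 1) (by omega) (by omega))
        · rw [e]
          by_cases h0 : i = j <;> simp [ha', h0]
        · have : (((if i = j then n + 1 else 0 : ℕ)) : ℤ) ≤ n + 1 := by split_ifs <;> omega
          have hHH : (0 : ℤ) ≤ (H : ℤ) * H := by positivity
          have h5 : (n : ℤ) + 1 + 1 ≤ ((n : ℤ) + 1) * ((H : ℤ) * H + (n + 1) + 1) - (H : ℤ) * H := by
            nlinarith [mul_nonneg (Int.natCast_nonneg n) hHH]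
          push_cast at hO
          omega)
      (fun i j hij hj => by
        have h5 := hd i j hij hj
        have h6 := hB (i + 1) (j + 1) (by omega) (by omega)
        simp only [ha']
        rw [abs_le] at h5 h6 ⊢
        split_ifs <;> constructor <;> omega)
      (by
        push_cast at hO
        nlinarith [mul_nonneg (Int.natCast_nonneg n) (mul_self_nonneg (H : ℤ))])
      h4 fun i => η (i + 1)
    have hsplit : ∑ i ∈ Finset.range (n + 1), ∑ j ∈ Finset.range (n + 1), η i * (a i j : ℝ) * η j =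
        (p : ℝ) * η 0 ^ 2 + 2 * η 0 * ∑ j ∈ Finset.range n, (y j : ℝ) * η (j + 1) +
          ∑ i ∈ Finset.range n, ∑ j ∈ Finset.range n,
            η (i + 1) * (a (i + 1) (j + 1) : ℝ) * η (j + 1) := by
      simp only [Finset.sum_range_succ', Finset.sum_add_distrib, Finset.mul_sum]
      have e1 : ∀ j, η (j + 1) * (a (j + 1) 0 : ℝ) * η 0 = η 0 * ((y j : ℝ) * η (j + 1)) := fun j => by
        rw [hs (j + 1) 0]
        ring
      have e2 : ∀ j, η 0 * (a 0 (j + 1) : ℝ) * η (j + 1) = η 0 * ((y j : ℝ) * η (j + 1)) := fun j => by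
        simp only [y]
        ring
      have e3 : ∀ j, 2 * η 0 * ((y j : ℝ) * η (j + 1)) = 2 * (η 0 * ((y j : ℝ) * η (j + 1))) :=
        fun j => by ring
      simp only [e1, e2, e3, ← Finset.mul_sum]
      rw [← hpa]
      push_cast
      ring
    set L := ∑ j ∈ Finset.range n, (y j : ℝ) * η (j + 1) with hL
    have hp' : (0 : ℝ) < p := by exact_mod_cast hp0
    have hsq : -(L ^ 2) / p ≤ (p : ℝ) * η 0 ^ 2 + 2 * η 0 * L := by
      rw [div_le_iff₀ hp']
      nlinarith [sq_nonneg ((p : ℝ) * η 0 + L)]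
    have hE : ∑ i ∈ Finset.range n, ∑ j ∈ Finset.range n, η (i + 1) * (a' i j : ℝ) * η (j + 1) ≤
        ∑ i ∈ Finset.range n, ∑ j ∈ Finset.range n,
            η (i + 1) * (a (i + 1) (j + 1) : ℝ) * η (j + 1) + -(L ^ 2) / p := by
      have hterm : ∀ i j, η (i + 1) * (a' i j : ℝ) * η (j + 1) ≤
          η (i + 1) * (a (i + 1) (j + 1) : ℝ) * η (j + 1) -
            (y i : ℝ) * η (i + 1) * ((y j : ℝ) * η (j + 1)) / p +
            |η (i + 1)| * |η (j + 1)| - if i = j then ((n : ℝ) + 1) * η (i + 1) ^ 2 else 0 := by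
        intro i j
        have hP : (0 : ℤ) < p := by exact_mod_cast hp0
        have f1 := Int.mul_ediv_add_emod (-(y i * y j)) p
        have f2 := Int.emod_nonneg (-(y i * y j)) hP.ne'
        have f3 := Int.emod_lt_of_pos (-(y i * y j)) hP
        simp only [ha', Int.cast_sub, Int.cast_add]
        generalize (-(y i * y j)) / (p : ℤ) = q at f1
        generalize (-(y i * y j)) % (p : ℤ) = r at f1 f2 f3
        have f4 : (p : ℝ) * q + r = -((y i : ℝ) * y j) := by exact_mod_cast f1
        have f5 : (0 : ℝ) ≤ r := by exact_mod_cast f2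
        have f6 : (r : ℝ) ≤ p := by exact_mod_cast f3.le
        have e0 : (q : ℝ) = -((y i : ℝ) * y j) / p - r / p := by
          field_simp
          linarith
        have f7 : |(r : ℝ) / p * (η (i + 1) * η (j + 1))| ≤ |η (i + 1)| * |η (j + 1)| := by
          rw [abs_mul, abs_mul, abs_of_nonneg (by positivity : (0 : ℝ) ≤ r / p)]
          exact mul_le_of_le_one_left (by positivity) ((div_le_one hp').2 f6)
        have f8 := (abs_le.1 f7).1
        split_ifs with hij
        · subst hij
          push_cast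
          rw [e0]
          ring_nf at f8 ⊢
          linarith
        · push_cast
          rw [e0]
          ring_nf at f8 ⊢
          linarith
      refine (Finset.sum_le_sum fun i _ => Finset.sum_le_sum fun j _ => hterm i j).trans ?_
      simp only [Finset.sum_add_distrib, Finset.sum_sub_distrib, Finset.sum_ite_eq]
      have hcs := sq_sum_le_card_mul_sum_sq (s := Finset.range n) (f := fun i => |η (i + 1)|)
      simp only [Finset.card_range, sq_abs] at hcs
      have hdiag : ∑ i ∈ Finset.range n, (if i ∈ Finset.range n then ((n : ℝ) + 1) * η (i + 1) ^ 2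
          else 0) = ((n : ℝ) + 1) * ∑ i ∈ Finset.range n, η (i + 1) ^ 2 := by
        rw [Finset.mul_sum]
        exact Finset.sum_congr rfl fun i hi => if_pos hi
      have habs : ∑ i ∈ Finset.range n, ∑ j ∈ Finset.range n, |η (i + 1)| * |η (j + 1)| =
          (∑ i ∈ Finset.range n, |η (i + 1)|) ^ 2 := by
        rw [sq, Finset.sum_mul_sum]
      have hquad : ∑ i ∈ Finset.range n, ∑ j ∈ Finset.range n,
          (y i : ℝ) * η (i + 1) * ((y j : ℝ) * η (j + 1)) / p = L ^ 2 / p := by
        rw [sq, hL, Finset.sum_mul_sum, Finset.sum_div]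
        exact Finset.sum_congr rfl fun i _ => (Finset.sum_div _ _ _).symm
      have hnn : 0 ≤ ∑ i ∈ Finset.range n, η (i + 1) ^ 2 :=
        Finset.sum_nonneg fun i _ => sq_nonneg _
      rw [hdiag, habs, hquad, neg_div]
      nlinarith
    rw [hsplit]
    linarith

/-! ### Residues and digits -/

theorem land_mask (n x : ℕ) : Nat.land x (2 ^ n - 1) = x % 2 ^ n := Nat.and_two_pow_sub_one_eq_mod x n

theorem cast_land {n : ℕ} (x : ℕ) :
    ((Nat.land x (2 ^ n - 1) : ℕ) : ZMod (2 ^ n)) = (x : ZMod (2 ^ n)) := by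
  rw [land_mask, ZMod.natCast_mod]

theorem cast_negRes {n : ℕ} (x : ℕ) :
    ((negRes (2 ^ n) (2 ^ n - 1) (Nat.land x (2 ^ n - 1)) : ℕ) : ZMod (2 ^ n)) =
      -(x : ZMod (2 ^ n)) := by
  have h : Nat.land x (2 ^ n - 1) ≤ 2 ^ n := by
    rw [land_mask]
    exact (Nat.mod_lt _ (Nat.two_pow_pos n)).le
  rw [negRes, cast_land, Nat.sub_eq, Nat.cast_sub h, ZMod.natCast_self, zero_sub, cast_land]

theorem cast_res {n : ℕ} (v : ℤ) : ((res (2 ^ n) v : ℕ) : ZMod (2 ^ n)) = (v : ZMod (2 ^ n)) := by
  have h : (0 : ℤ) ≤ v % ((2 ^ n : ℕ) : ℤ) :=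
    Int.emod_nonneg _ (by exact_mod_cast (Nat.two_pow_pos n).ne')
  rw [res, ← Int.cast_natCast (R := ZMod (2 ^ n)), Int.toNat_of_nonneg h, ZMod.intCast_mod]

theorem pows_cast {n : ℕ} (X : ℕ) : ∀ (N a i : ℕ), i < N →
    (((Nat.rec (fun _ => []) (fun _ r a => a :: r (Nat.land (a * X) (2 ^ n - 1))) N :
      ℕ → List ℕ) a).getD i 0 : ZMod (2 ^ n)) = (a : ZMod (2 ^ n)) * (X : ZMod (2 ^ n)) ^ i
  | N + 1, a, 0, _ => by simp
  | N + 1, a, i + 1, h => by
    show ((((Nat.rec (fun _ => []) (fun _ r a => a :: r (Nat.land (a * X) (2 ^ n - 1))) N :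
      ℕ → List ℕ) (Nat.land (a * X) (2 ^ n - 1))).getD i 0 : ℕ) : ZMod (2 ^ n)) = _
    rw [pows_cast X N _ i (by omega), cast_land]
    simp only [Nat.cast_mul, pow_succ]
    ring

theorem monExps_mem {D : ℕ} {t : ℕ × ℕ × ℕ} (h : t ∈ monExps D) : t.1 + t.2.1 + t.2.2 = D := by
  simp only [monExps, List.mem_flatMap, List.mem_range, List.mem_map] at h
  obtain ⟨i, hi, j, hj, rfl⟩ := h
  show i + j + (D - i - j) = D
  omega

theorem evalAt_exOf_hom (off D : ℕ) (e : List ℕ) (r : ℝ) (p : ℝ × ℝ × ℝ) :
    evalAt (exOf off D e) (r * p.1, r * p.2.1, r * p.2.2) = r ^ D * evalAt (exOf off D e) p := by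
  have h : ∀ (l : List (ℕ × ℕ × ℕ)) (e : List ℕ), (∀ t ∈ l, t.1 + t.2.1 + t.2.2 = D) →
      (sumEx (List.zipWith (fun (c : ℕ) t => monEx ((c : ℤ) - (off : ℤ)) t) e l)).eval
        (r * p.1) (r * p.2.1) (r * p.2.2) = r ^ D *
      (sumEx (List.zipWith (fun (c : ℕ) t => monEx ((c : ℤ) - (off : ℤ)) t) e l)).eval p.1 p.2.1 p.2.2 := by
    intro l
    induction l with
    | nil => intro e _; simp [sumEx, Ex.eval]
    | cons t l ih =>
      intro e hl
      cases e with
      | nil => simp [sumEx, Ex.eval]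
      | cons c e =>
        have e1 := ih e fun s hs => hl s (List.mem_cons_of_mem _ hs)
        simp only [eval_sumEx] at e1 ⊢
        simp only [List.zipWith_cons_cons, List.map_cons, List.sum_cons, e1]
        simp only [monEx, Ex.eval, mul_pow]
        rw [← hl t (List.mem_cons_self ..)]
        ring
  exact h _ e fun t ht => monExps_mem ht

theorem tdeg_exOf (off D : ℕ) (e : List ℕ) : tdeg (exOf off D e) ≤ D := by
  have h : ∀ (l : List (ℕ × ℕ × ℕ)) (e : List ℕ), (∀ t ∈ l, t.1 + t.2.1 + t.2.2 = D) →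
      tdeg (sumEx (List.zipWith (fun (c : ℕ) t => monEx ((c : ℤ) - (off : ℤ)) t) e l)) ≤ D := by
    intro l
    induction l with
    | nil => intro e _; simp [sumEx, tdeg]
    | cons t l ih =>
      intro e hl
      cases e with
      | nil => simp [sumEx, tdeg]
      | cons c e =>
        show max (0 + (t.1 * 1 + (t.2.1 * 1 + t.2.2 * 1)))
          (tdeg (sumEx (List.zipWith (fun (c : ℕ) t => monEx ((c : ℤ) - (off : ℤ)) t) e l))) ≤ D
        refine max_le ?_ (ih e fun s hs => hl s (List.mem_cons_of_mem _ hs))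
        have := hl t (List.mem_cons_self ..)
        omega
  exact h _ e fun t ht => monExps_mem ht

theorem norm_exOf (off D : ℕ) (e : List ℕ) :
    normAt 1 1 1 (exOf off D e) ≤ (e.map fun c => (c - off) + (off - c)).sum := by
  have h : ∀ (l : List (ℕ × ℕ × ℕ)) (e : List ℕ),
      normAt 1 1 1 (sumEx (List.zipWith (fun (c : ℕ) t => monEx ((c : ℤ) - (off : ℤ)) t) e l)) ≤
        (e.map fun c => (c - off) + (off - c)).sum := by
    intro l
    induction l with
    | nil => intro e; simp [sumEx, normAt]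
    | cons t l ih =>
      intro e
      cases e with
      | nil => simp [sumEx, normAt]
      | cons c e =>
        show ((c : ℤ) - (off : ℤ)).natAbs * (1 ^ t.1 * (1 ^ t.2.1 * 1 ^ t.2.2)) +
          normAt 1 1 1 (sumEx (List.zipWith (fun (c : ℕ) t => monEx ((c : ℤ) - (off : ℤ)) t) e l)) ≤ _
        rw [List.map_cons, List.sum_cons]
        refine add_le_add ?_ (ih e)
        simp only [one_pow, mul_one]
        omega
  exact h _ e

theorem entry_value {n D off : ℕ} (e : List ℕ) (val : ℕ × ℕ × ℕ → ℕ) (X Y Z : ℤ)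
    (hlen : e.length = (monExps D).length)
    (hval : ∀ t ∈ monExps D,
      (val t : ZMod (2 ^ n)) = (X : ZMod (2 ^ n)) ^ t.1 * (Y : ZMod (2 ^ n)) ^ t.2.1 *
        (Z : ZMod (2 ^ n)) ^ t.2.2) :
    (dot e ((monExps D).map val) : ZMod (2 ^ n)) =
      ((exOf off D e).eval X Y Z : ℤ) + (off : ZMod (2 ^ n)) * (((monExps D).map val).sum : ℕ) := by
  have h : ∀ (l : List (ℕ × ℕ × ℕ)) (e : List ℕ), e.length = l.length →
      (∀ t ∈ l, (val t : ZMod (2 ^ n)) = (X : ZMod (2 ^ n)) ^ t.1 * (Y : ZMod (2 ^ n)) ^ t.2.1 *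
        (Z : ZMod (2 ^ n)) ^ t.2.2) →
      (dot e (l.map val) : ZMod (2 ^ n)) =
        (((sumEx (List.zipWith (fun (c : ℕ) t => monEx ((c : ℤ) - (off : ℤ)) t) e l)).eval X Y Z : ℤ) :
          ZMod (2 ^ n)) + (off : ZMod (2 ^ n)) * ((l.map val).sum : ℕ) := by
    intro l
    induction l with
    | nil => intro e he _; simp [List.length_eq_zero_iff.1 he, sumEx, Ex.eval, dot_eq]
    | cons t l ih =>
      intro e he hl
      cases e with
      | nil => simp at he
      | cons c e =>
        show ((c * val t + dot e (l.map val) : ℕ) : ZMod (2 ^ n)) = _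
        rw [Nat.cast_add, ih e (by simpa using he) fun s hs => hl s (List.mem_cons_of_mem _ hs)]
        simp only [eval_sumEx, List.zipWith_cons_cons, List.map_cons, List.sum_cons, Nat.cast_add,
          Nat.cast_mul, Int.cast_add, monEx, Ex.eval, Int.cast_mul, Int.cast_sub, Int.cast_natCast,
          Int.cast_pow, hl t (List.mem_cons_self ..)]
        ring
  exact h _ e hlen hval

theorem dig_chunk (k P i j u : ℕ) (hi : i < P) :
    Nat.land (Nat.shiftRight (Nat.land (Nat.shiftRight u ((k + 1) * P * j)) (2 ^ ((k + 1) * P) - 1))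
      ((k + 1) * i)) (2 ^ (k + 1) - 1) = dig k (i + P * j) u := by
  show (((u >>> ((k + 1) * P * j)) &&& (2 ^ ((k + 1) * P) - 1)) >>> ((k + 1) * i)) &&& (2 ^ (k + 1) - 1) =
    (u >>> ((k + 1) * (i + P * j))) &&& (2 ^ (k + 1) - 1)
  refine Nat.eq_of_testBit_eq fun b => ?_
  simp only [Nat.testBit_and, Nat.testBit_shiftRight, Nat.testBit_two_pow_sub_one]
  by_cases hb : b < k + 1
  · have h1 : (k + 1) * i + b < (k + 1) * P := by nlinarith
    simp only [hb, decide_true, Bool.and_true, h1]
    congr 1
    ring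
  · simp [hb]

theorem shift_shift (u a b : ℕ) : Nat.shiftRight (Nat.shiftRight u a) b = Nat.shiftRight u (a + b) :=
  (Nat.shiftRight_add u a b).symm

theorem rowsOK_sound {m k H O' K P : ℕ} : ∀ (n : ℕ) (us : List (List ℕ)),
    rowsOK m k H O' K P n us = true → ∀ j < n,
      digitsOK m k H O' K (mask k (P - (n - j))) (n - j)
        ((us.map (List.map fun u => Nat.shiftRight u ((k + 1) * P * j))).map
          (List.map fun u => Nat.land u (2 ^ ((k + 1) * P) - 1))) = true
  | n + 1, us, h, j, hj => by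
    change (forceLL (lmap (lmap fun u => Nat.land u (2 ^ ((k + 1) * P) - 1)) us)
        (digitsOK m k H O' K (mask k (P - (n + 1))) (n + 1)) &&
      forceLL (lmap (lmap fun u => Nat.shiftRight u ((k + 1) * P)) us) (rowsOK m k H O' K P n)) =
        true at h
    simp only [Bool.and_eq_true, forceLL_eq, lmap_eq] at h
    rw [funext (lmap_eq (fun u => Nat.land u (2 ^ ((k + 1) * P) - 1))),
      funext (lmap_eq (fun u => Nat.shiftRight u ((k + 1) * P)))] at h
    obtain ⟨h1, h2⟩ := h
    rcases j with _ | j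
    · simpa [Nat.shiftRight_zero, Nat.shiftRight, List.map_id'] using h1
    · have := rowsOK_sound n _ h2 j (by omega)
      rw [Nat.succ_sub_succ_eq_sub]
      simp only [List.map_map, Function.comp_def, shift_shift] at this ⊢
      simpa only [show (k + 1) * P * (j + 1) = (k + 1) * P + (k + 1) * P * j by ring] using this

theorem digitsOK_sound {m k H O' K rest : ℕ} : ∀ (n : ℕ) (us : List (List ℕ)),
    digitsOK m k H O' K rest n us = true →
      (∀ i < n, pd H O' K m (us.map (List.map fun u =>
        Nat.land (Nat.shiftRight u ((k + 1) * i)) (2 ^ (k + 1) - 1) + O')) = true) ∧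
      ∀ row ∈ us, ∀ u ∈ row, Nat.shiftRight u ((k + 1) * n) = rest
  | 0, us, h => by
    change lall (lall fun u => Nat.beq u rest) us = true at h
    simp only [lall_eq, List.all_eq_true] at h
    refine ⟨fun i hi => absurd hi (Nat.not_lt_zero i), fun row hrow u hu => ?_⟩
    simpa using Nat.eq_of_beq_eq_true (h row hrow u hu)
  | n + 1, us, h => by
    change (pd H O' K m (lmap (lmap fun u => Nat.add (Nat.land u (2 ^ (k + 1) - 1)) O') us) &&
      digitsOK m k H O' K rest n (lmap (lmap fun u => Nat.shiftRight u (k + 1)) us)) = true at h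
    rw [lmap_eq, funext (lmap_eq (fun u => Nat.add (Nat.land u (2 ^ (k + 1) - 1)) O')),
      lmap_eq, funext (lmap_eq (fun u => Nat.shiftRight u (k + 1))), Bool.and_eq_true] at h
    obtain ⟨h1, h2⟩ := h
    obtain ⟨g1, g2⟩ := digitsOK_sound n _ h2
    refine ⟨fun i hi => ?_, fun row hrow u hu => ?_⟩
    · rcases i with _ | i
      · simpa using h1
      · have := g1 i (by omega)
        simp only [List.map_map, Function.comp_def, shift_shift] at this
        simpa only [show (k + 1) * (i + 1) = (k + 1) + (k + 1) * i by ring] using this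
    · have := g2 _ (List.mem_map_of_mem hrow) _ (List.mem_map_of_mem hu)
      rwa [shift_shift, show (k + 1) + (k + 1) * n = (k + 1) * (n + 1) by ring] at this

theorem dig_mask (k j i : ℕ) (hi : i < j) : dig k i (mask k j) = 2 ^ k := by
  have h := dig_eq k j (fun _ => 0) (fun _ => by simp) i hi
  simp only [zero_mul, Finset.sum_const_zero, zero_add, Int.toNat_natCast] at h
  exact_mod_cast h

theorem normAt_le {R A B C : ℕ} (hR : 1 ≤ R) (hA : A ≤ R) (hB : B ≤ R) (hC : C ≤ R) (e : Ex) :
    normAt A B C e ≤ normAt 1 1 1 e * R ^ tdeg e := by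
  induction e with
  | num k => exact (Nat.mul_one _).ge
  | x => simpa [normAt, tdeg] using hA
  | y => simpa [normAt, tdeg] using hB
  | z => simpa [normAt, tdeg] using hC
  | add a b ha hb =>
    show normAt A B C a + normAt A B C b ≤
      (normAt 1 1 1 a + normAt 1 1 1 b) * R ^ max (tdeg a) (tdeg b)
    rw [add_mul]
    exact add_le_add (ha.trans (Nat.mul_le_mul_left _ (Nat.pow_le_pow_right hR (le_max_left _ _))))
      (hb.trans (Nat.mul_le_mul_left _ (Nat.pow_le_pow_right hR (le_max_right _ _))))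
  | sub a b ha hb =>
    show normAt A B C a + normAt A B C b ≤
      (normAt 1 1 1 a + normAt 1 1 1 b) * R ^ max (tdeg a) (tdeg b)
    rw [add_mul]
    exact add_le_add (ha.trans (Nat.mul_le_mul_left _ (Nat.pow_le_pow_right hR (le_max_left _ _))))
      (hb.trans (Nat.mul_le_mul_left _ (Nat.pow_le_pow_right hR (le_max_right _ _))))
  | mul a b ha hb =>
    show normAt A B C a * normAt A B C b ≤
      normAt 1 1 1 a * normAt 1 1 1 b * R ^ (tdeg a + tdeg b)
    rw [pow_add, mul_mul_mul_comm]
    exact Nat.mul_le_mul ha hb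
  | pow a n ha =>
    show normAt A B C a ^ n ≤ normAt 1 1 1 a ^ n * R ^ (n * tdeg a)
    rw [mul_comm n, pow_mul, ← mul_pow]
    exact Nat.pow_le_pow_left ha n

/-- A polynomial in `x`, `y` of degrees below `P` is the sum over the places of its coefficients. -/
theorem coeff_rep {e : Ex} {P : ℕ} (hd : e.deg.1 < P ∧ e.deg.2.1 < P ∧ e.deg.2.2 = 0) (k : ℕ)
    (a b : ℝ) :
    e.eval ((2 ^ (k + 1) : ℕ) : ℤ) (((2 ^ (k + 1)) ^ P : ℕ) : ℤ) 0 =
        ∑ i ∈ Finset.range (P * P), coeff P P e.terms i * ((2 : ℤ) ^ (k + 1)) ^ i ∧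
      e.eval a b 0 =
        ∑ i ∈ Finset.range (P * P), (coeff P P e.terms i : ℝ) * (a ^ (i % P) * b ^ (i / P)) := by
  have hP0 : 0 < P := by omega
  have hl : ∀ t ∈ e.terms, t.2.1 < P ∧ t.2.2.1 < P ∧ t.2.2.2 = 0 := fun t ht => by
    obtain ⟨h1, h2, h3⟩ := e.terms_deg t ht
    omega
  have hidx : ∀ t ∈ e.terms, idx P P t.2 = t.2.1 + P * t.2.2.1 := fun t ht => by
    simp [idx, (hl t ht).2.2]
  have hlt : ∀ t ∈ e.terms, idx P P t.2 < P * P := fun t ht => by
    obtain ⟨h1, h2, h3⟩ := hl t ht
    rw [hidx t ht]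
    nlinarith
  constructor
  · have := sum_coeff P P (P * P) (fun i => ((2 : ℤ) ^ (k + 1)) ^ i) e.terms hlt
    simp only [Int.cast_id] at this
    rw [← this, ← Ex.tval_terms, tval]
    refine congrArg List.sum (List.map_congr_left fun t ht => ?_)
    rw [hidx t ht, (hl t ht).2.2, Int.cast_id, pow_zero, mul_one]
    push_cast
    rw [← pow_mul _ P, ← pow_add]
  · have := sum_coeff (R := ℝ) P P (P * P) (fun i => a ^ (i % P) * b ^ (i / P)) e.terms hlt
    rw [← this, ← Ex.tval_terms, tval]
    refine congrArg List.sum (List.map_congr_left fun t ht => ?_)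
    rw [hidx t ht, (hl t ht).2.2, Nat.add_mul_mod_self_left, Nat.mod_eq_of_lt (hl t ht).1,
      Nat.add_mul_div_left _ _ hP0, Nat.div_eq_of_lt (hl t ht).1, zero_add, pow_zero, mul_one]

/-- The digits that pass the row test are positive semidefinite matrices. -/
theorem rows_psd {m k O' K P : ℕ} (hK : K = 2 * 2 ^ k * 2 ^ k + 1)
    (hO : ((2 ^ k : ℕ) : ℤ) + (m : ℤ) * (((2 ^ k : ℕ) : ℤ) * ((2 ^ k : ℕ) : ℤ) + m + 1) ≤ O')
    {F : ℕ → ℕ → ℕ} {c : ℕ → ℕ → ℕ → ℤ}
    (hcb : ∀ i j, i < m → j < m → ∀ q, |c i j q| < ((2 ^ k : ℕ) : ℤ))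
    (hdigit : ∀ i j, i ≤ j → j < m → ∀ q < P * P, (dig k q (F i j) : ℤ) = c i j q + ((2 ^ k : ℕ) : ℤ))
    (h : rowsOK m k (2 ^ k) O' K P P (upper m F) = true) (η : ℕ → ℝ) (q : ℕ) (hq : q < P * P) :
    0 ≤ ∑ i ∈ Finset.range m, ∑ j ∈ Finset.range m, η i * (c (min i j) (max i j) q : ℝ) * η j := by
  have hP0 : 0 < P := Nat.pos_of_ne_zero fun h0 => by simp [h0] at hq
  set qi := q % P
  set qj := q / P
  have hqi : qi < P := Nat.mod_lt _ hP0
  have hqj : qj < P := Nat.div_lt_of_lt_mul hq
  have hqq : qi + P * qj = q := Nat.mod_add_div q P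
  obtain ⟨g1, g2⟩ := digitsOK_sound _ _ (rowsOK_sound P _ h qj hqj)
  rcases lt_or_ge qi (P - qj) with hin | hout
  · have hpd := g1 qi hin
    rw [map_upper, map_upper, map_upper] at hpd
    simp only [dig_chunk k P qi qj _ hqi, hqq] at hpd
    refine pd_sound (H := 2 ^ k) (O' := O') (K := K) hK m _
      (fun i j => c (min i j) (max i j) q) ((2 ^ k : ℕ) : ℤ) (fun i j => by simp only [min_comm, max_comm])
      (fun i j hij hj => by
        rw [min_eq_left hij, max_eq_right hij]
        rw [Nat.cast_add, hdigit i j hij hj q hq])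
      (fun i j hij hj => le_of_lt (hcb _ _ (by omega) (by omega) q)) ?_ hpd η
    linarith
  · refine le_of_eq (Eq.symm (Finset.sum_eq_zero fun i hi => Finset.sum_eq_zero fun j hj => ?_))
    rw [Finset.mem_range] at hi hj
    obtain ⟨row, hrow, hu⟩ := mem_upper m (fun i j => Nat.land
      (Nat.shiftRight (F i j) ((k + 1) * P * qj)) (2 ^ ((k + 1) * P) - 1)) (min i j) (max i j)
      min_le_max (max_lt hi hj)
    rw [map_upper (fun u => Nat.shiftRight u ((k + 1) * P * qj)),
      map_upper (fun u => Nat.land u (2 ^ ((k + 1) * P) - 1))] at g2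
    have hr := g2 row hrow _ hu
    have hd : dig k (qi - (P - qj)) (mask k (P - (P - qj))) = 2 ^ k := dig_mask k _ _ (by omega)
    rw [← hr] at hd
    simp only [dig, Nat.shiftRight_eq, ← Nat.shiftRight_add] at hd
    have e : dig k q (F (min i j) (max i j)) = 2 ^ k := by
      rw [← hqq, ← dig_chunk k P qi qj _ hqi, ← hd]
      simp only [Nat.shiftRight_eq]
      rw [show (k + 1) * (P - qj) + (k + 1) * (qi - (P - qj)) = (k + 1) * qi by
        rw [← mul_add]; congr 1; omega]
      rfl
    have := hdigit (min i j) (max i j) min_le_max (max_lt hi hj) q hq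
    rw [e] at this
    have hz : c (min i j) (max i j) q = 0 := by omega
    simp [hz]

/-- A checked leaf gives a nonnegative form at the points with weights `X, Y, 1`. -/
theorem leaf_chart {m nb off D : ℕ} {M : List (List (List ℕ))} {V : Tri}
    (hb : blockOK m nb off D M = true) (h : checkLeaf m nb off D M V = true)
    {X Y : ℝ} (hX : 0 ≤ X) (hY : 0 ≤ Y) (ξ : Fin m → ℝ) :
    0 ≤ ∑ i, ∑ j, ξ i * evalAt (matEx m off D M i j) (V.pt X Y 1) * ξ j := by
  simp only [blockOK, Bool.and_eq_true, List.all_eq_true, List.mem_range, Nat.ble_eq,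
    Nat.beq_eq, lsum_eq, lmap_eq, Nat.sub_eq, Nat.add_eq] at hb
  obtain ⟨hlenM, hrows⟩ := hb
  have hMu : M = upper m fun i j => (M.getD i []).getD (j - i) [] :=
    eq_upper [] m M hlenM fun i hi => (hrows i hi).1
  have hent : ∀ i j, i < m → j < m → (entry M i j).length = (monExps D).length ∧
      ((entry M i j).map fun c => (c - off) + (off - c)).sum ≤ nb := fun i j hi hj => by
    obtain ⟨h1, h2⟩ := hrows (min i j) (by omega)
    have hlt : max i j - min i j < (M.getD (min i j) []).length := by rw [h1]; omega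
    refine h2 _ ?_
    rw [entry, List.getD_eq_getElem _ _ hlt]
    exact List.getElem_mem hlt
  set k := Nat.log2 (nb * triNorm V ^ D) + 1 with hk
  set P := D + 1 with hP
  set n := (k + 1) * (P * P) with hn
  set E : ℕ → ℕ → Ex := fun i j => V.pull (exOf off D (entry M i j)) with hE
  have hdegE : ∀ i j, (E i j).deg.1 < P ∧ (E i j).deg.2.1 < P ∧ (E i j).deg.2.2 = 0 := fun i j => by
    obtain ⟨h1, h2, h3⟩ := bd_pull V (exOf off D (entry M i j))
    have := tdeg_exOf off D (entry M i j)
    simp only [hE]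
    exact ⟨by omega, by omega, h3⟩
  set c : ℕ → ℕ → ℕ → ℤ := fun i j => coeff P P (E i j).terms with hc
  have hcN : ∀ i j, i < m → j < m → ∀ q, |c i j q| ≤ ((nb * triNorm V ^ D : ℕ) : ℤ) :=
    fun i j hi hj q => by
      refine le_trans (coeff_abs ..) (Int.ofNat_le.2 ((E i j).tnorm_terms.trans ?_))
      simp only [hE, Tri.pull, norm_subst]
      refine (normAt_le (le_max_left 1 _) ?_ ?_ ?_ _).trans (Nat.mul_le_mul
        ((norm_exOf off D _).trans (hent i j hi hj).2)
        (Nat.pow_le_pow_right (le_max_left 1 _) (tdeg_exOf off D _)))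
      all_goals simp [lin, Ex.norm, lnorm]
  have hcb : ∀ i j, i < m → j < m → ∀ q, |c i j q| < ((2 ^ k : ℕ) : ℤ) := fun i j hi hj q =>
    lt_of_le_of_lt (hcN i j hi hj q) (by exact_mod_cast Nat.lt_log2_self)
  simp only [checkLeaf, monVals, forceN_eq, forceL_eq, forceLL_eq, lmap_eq, lsum_eq, ← hk, ← hP,
    ← hn] at h
  set B : ℕ := 2 ^ (k + 1) with hB
  set BP : ℕ := B ^ P with hBP
  set Xi : ℤ := V.p0.1 * (B : ℤ) + V.p1.1 * (BP : ℤ) + V.p2.1 with hXi
  set Yi : ℤ := V.p0.2.1 * (B : ℤ) + V.p1.2.1 * (BP : ℤ) + V.p2.2.1 with hYi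
  set Zi : ℤ := V.p0.2.2 * (B : ℤ) + V.p1.2.2 * (BP : ℤ) + V.p2.2.2 with hZi
  set val : ℕ × ℕ × ℕ → ℕ := fun t => Nat.land (Nat.mul (Nat.land (Nat.mul
    ((pows (2 ^ n - 1) (res (2 ^ n) Xi) P).getD t.1 0)
    ((pows (2 ^ n - 1) (res (2 ^ n) Yi) P).getD t.2.1 0)) (2 ^ n - 1))
    ((pows (2 ^ n - 1) (res (2 ^ n) Zi) P).getD t.2.2 0)) (2 ^ n - 1) with hvaldef
  set C : ℕ := Nat.add (negRes (2 ^ n) (2 ^ n - 1)
    (Nat.land (Nat.mul off ((monExps D).map val).sum) (2 ^ n - 1))) (mask k (P * P)) with hCdef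
  have hval : ∀ t ∈ monExps D, (val t : ZMod (2 ^ n)) = (Xi : ZMod (2 ^ n)) ^ t.1 *
      (Yi : ZMod (2 ^ n)) ^ t.2.1 * (Zi : ZMod (2 ^ n)) ^ t.2.2 := fun t ht => by
    have hs := monExps_mem ht
    simp only [hvaldef, cast_land, Nat.mul_eq, Nat.cast_mul, pows]
    rw [pows_cast _ P 1 _ (by omega), pows_cast _ P 1 _ (by omega), pows_cast _ P 1 _ (by omega)]
    simp [cast_res]
  set F : ℕ → ℕ → ℕ := fun i j =>
    Nat.land (Nat.add (dot ((M.getD i []).getD (j - i) []) ((monExps D).map val)) C) (2 ^ n - 1)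
  have hus : M.map (lmap fun e => Nat.land (Nat.add (dot e ((monExps D).map val)) C) (2 ^ n - 1)) =
      upper m F := by
    conv_lhs => rw [hMu]
    rw [funext (lmap_eq _), map_upper]
  rw [hus] at h
  have hdigit : ∀ i j, i ≤ j → j < m → ∀ q < P * P,
      (dig k q (F i j) : ℤ) = c i j q + ((2 ^ k : ℕ) : ℤ) := by
    intro i j hij hj q hq
    have hentry : (M.getD i []).getD (j - i) [] = entry M i j := by
      rw [entry, min_eq_left hij, max_eq_right hij]
    have hrep := (coeff_rep (hdegE i j) k 0 0).1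
    set S : ℤ := ∑ q ∈ Finset.range (P * P), c i j q * ((2 : ℤ) ^ (k + 1)) ^ q with hS
    have hc' := hcb i j (by omega) hj
    set f : ℕ → ℕ := fun q => (c i j q + ((2 ^ k : ℕ) : ℤ)).toNat with hf
    have hf' : ∀ q, (f q : ℤ) = c i j q + ((2 ^ k : ℕ) : ℤ) := fun q => by
      have := abs_lt.1 (hc' q)
      simp only [hf]
      omega
    have hmask : ∀ N, (mask k N : ℤ) =
        ∑ q ∈ Finset.range N, ((2 ^ k : ℕ) : ℤ) * ((2 : ℤ) ^ (k + 1)) ^ q := fun N => by
      induction N with
      | zero => simp [mask]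
      | succ N ih =>
        rw [mask_succ, Finset.sum_range_succ']
        push_cast at ih ⊢
        rw [ih, Finset.mul_sum, pow_zero, mul_one, add_comm]
        congr 1
        exact Finset.sum_congr rfl fun q _ => by ring
    have hsum : S + (mask k (P * P) : ℤ) =
        ((∑ q ∈ Finset.range (P * P), f q * B ^ q : ℕ) : ℤ) := by
      rw [hS, hmask, ← Finset.sum_add_distrib]
      push_cast [hB, hf']
      exact Finset.sum_congr rfl fun q _ => by ring
    have hlt : ∀ N, ∑ q ∈ Finset.range N, f q * B ^ q < B ^ N := fun N => by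
      induction N with
      | zero => simp
      | succ N ih =>
        have hfN : f N + 1 ≤ B := by
          have h1 := abs_lt.1 (hc' N)
          have h2 := hf' N
          have h3 : B = 2 * 2 ^ k := by rw [hB, pow_succ']
          omega
        rw [Finset.sum_range_succ, pow_succ']
        have h4 := Nat.mul_le_mul_right (B ^ N) hfN
        rw [add_mul, one_mul] at h4
        omega
    have hres : (F i j : ZMod (2 ^ n)) = ((S + (mask k (P * P) : ℤ) : ℤ) : ZMod (2 ^ n)) := by
      simp only [F, hentry]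
      rw [cast_land, Nat.add_eq, Nat.cast_add,
        entry_value (off := off) _ val Xi Yi Zi (hent i j (by omega) hj).1 hval, hCdef, Nat.add_eq,
        Nat.cast_add, cast_negRes, Nat.mul_eq, Nat.cast_mul,
        show (exOf off D (entry M i j)).eval Xi Yi Zi = S by
          rw [← hrep]
          simp only [hE, Tri.pull, eval_subst, lin, Ex.eval, Int.cast_id, hXi, hYi, hZi, hBP, hB]]
      push_cast
      ring
    rw [hsum, Int.cast_natCast] at hres
    have hF : F i j = ∑ q ∈ Finset.range (P * P), f q * B ^ q := by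
      have h1 := (ZMod.natCast_eq_natCast_iff' _ _ _).1 hres
      have h2 : F i j < 2 ^ n := by
        simp only [F, land_mask]
        exact Nat.mod_lt _ (Nat.two_pow_pos n)
      have h3 : ∑ q ∈ Finset.range (P * P), f q * B ^ q < 2 ^ n := by
        rw [hn, pow_mul, ← hB]
        exact hlt _
      rwa [Nat.mod_eq_of_lt h2, Nat.mod_eq_of_lt h3] at h1
    have := dig_eq k (P * P) (c i j) hc' q hq
    rwa [← hS, hsum, Int.toNat_natCast, ← hF] at this
  have hO : ((2 ^ k : ℕ) : ℤ) + (m : ℤ) * (((2 ^ k : ℕ) : ℤ) * ((2 ^ k : ℕ) : ℤ) + m + 1) ≤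
      ((8 * (m + 2) ^ 2 * 2 ^ k * 2 ^ k : ℕ) : ℤ) := by
    have h1 : (1 : ℤ) ≤ ((2 ^ k : ℕ) : ℤ) := by exact_mod_cast Nat.two_pow_pos k
    generalize (2 ^ k : ℕ) = H at h1 ⊢
    have h2 : (H : ℤ) ≤ (H : ℤ) * H := by nlinarith
    have h0 : (0 : ℤ) ≤ m := Int.natCast_nonneg m
    push_cast
    nlinarith [mul_le_mul_of_nonneg_left (le_trans h1 h2) (mul_nonneg h0 h0),
      mul_le_mul_of_nonneg_left (le_trans h1 h2) h0,
      mul_nonneg (mul_nonneg h0 h0) (mul_self_nonneg (H : ℤ)), mul_nonneg h0 (mul_self_nonneg (H : ℤ))]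
  have hq := rows_psd rfl hO hcb hdigit h
  set η : ℕ → ℝ := fun i => if hi : i < m then ξ ⟨i, hi⟩ else 0 with hη
  have hsum : ∑ i, ∑ j, ξ i * evalAt (matEx m off D M i j) (V.pt X Y 1) * ξ j =
      ∑ q ∈ Finset.range (P * P), (X ^ (q % P) * Y ^ (q / P)) *
        ∑ i ∈ Finset.range m, ∑ j ∈ Finset.range m, η i * (c (min i j) (max i j) q : ℝ) * η j := by
    have e : ∀ i j : Fin m, evalAt (matEx m off D M i j) (V.pt X Y 1) = ∑ q ∈ Finset.range (P * P),
        (c (min i j : ℕ) (max i j : ℕ) q : ℝ) * (X ^ (q % P) * Y ^ (q / P)) := fun i j => by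
      have h1 := (coeff_rep (hdegE (min (i : ℕ) j) (max i j)) k X Y).2
      simp only [hE, eval_pull] at h1
      rw [← h1]
      simp [matEx, entry]
    simp only [Finset.mul_sum]
    rw [Finset.sum_comm (s := Finset.range (P * P)), Finset.sum_range fun i => ∑ q ∈ Finset.range (P * P),
      ∑ j ∈ Finset.range m, (X ^ (q % P) * Y ^ (q / P)) * (η i * (c (min i j) (max i j) q : ℝ) * η j)]
    refine Finset.sum_congr rfl fun i _ => ?_
    rw [Finset.sum_comm, Finset.sum_range fun j => ∑ q ∈ Finset.range (P * P),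
      (X ^ (q % P) * Y ^ (q / P)) * (η i * (c (min (i : ℕ) j) (max (i : ℕ) j) q : ℝ) * η j)]
    refine Finset.sum_congr rfl fun j _ => ?_
    rw [e, Finset.mul_sum, Finset.sum_mul]
    refine Finset.sum_congr rfl fun q _ => ?_
    simp [hη]
    ring
  rw [hsum]
  exact Finset.sum_nonneg fun q hq' =>
    mul_nonneg (by positivity) (hq η q (Finset.mem_range.1 hq'))

/-- A checked leaf gives a nonnegative form on its closed cone. -/
theorem posOn_of_leaf {m nb off D : ℕ} {M : List (List (List ℕ))} {V : Tri}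
    (hb : blockOK m nb off D M = true) (h : checkLeaf m nb off D M V = true) :
    PosOn (matEx m off D M) V := by
  have hchart : ∀ {X Y : ℝ}, 0 ≤ X → 0 ≤ Y → ∀ ξ : Fin m → ℝ,
      0 ≤ ∑ i, ∑ j, ξ i * evalAt (matEx m off D M i j) (V.pt X Y 1) * ξ j :=
    fun hX hY ξ => leaf_chart hb h hX hY ξ
  intro a b c ha hb hc ξ
  have hpos : ∀ s, 0 < s → 0 ≤ ∑ k, ∑ l, ξ k * evalAt (matEx m off D M k l) (V.pt a b s) * ξ l := by
    intro s hs0
    have h0 := hchart (div_nonneg ha hs0.le) (div_nonneg hb hs0.le)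
      fun k => ξ k / s ^ (0 : ℕ)
    have e : V.pt a b s = (s * (V.pt (a / s) (b / s) 1).1, s * (V.pt (a / s) (b / s) 1).2.1,
        s * (V.pt (a / s) (b / s) 1).2.2) := by
      simp only [Tri.pt, Prod.mk.injEq]
      refine ⟨?_, ?_, ?_⟩ <;> field_simp
    have e2 : ∀ k l, ξ k * evalAt (matEx m off D M k l) (V.pt a b s) * ξ l
        = s ^ D * (ξ k / s ^ (0 : ℕ) * evalAt (matEx m off D M k l) (V.pt (a / s) (b / s) 1) * (ξ l / s ^ (0 : ℕ))) :=
      fun k l => by
        rw [e]
        have := evalAt_exOf_hom off D (entry M k l) s (V.pt (a / s) (b / s) 1)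
        simp only [matEx] at *
        field_simp
        linear_combination (ξ k * ξ l) * this
    simp only [e2, ← Finset.mul_sum]
    exact mul_nonneg (pow_nonneg hs0.le _) h0
  rcases lt_or_eq_of_le hc with hc' | rfl
  · exact hpos c hc'
  have hev : ∀ e : Ex, Continuous fun p : ℝ × ℝ × ℝ => evalAt e p := fun e => by
    unfold evalAt
    induction e with
    | num k => simpa [Ex.eval] using continuous_const
    | x => exact continuous_fst
    | y => exact continuous_snd.fst
    | z => exact continuous_snd.snd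
    | add e f he hf => simp only [Ex.eval]; exact he.add hf
    | sub e f he hf => simp only [Ex.eval]; exact he.sub hf
    | mul e f he hf => simp only [Ex.eval]; exact he.mul hf
    | pow e n he => simp only [Ex.eval]; exact he.pow n
  have hcont : Continuous fun s : ℝ =>
      ∑ k, ∑ l, ξ k * evalAt (matEx m off D M k l) (V.pt a b s) * ξ l := by
    refine continuous_finsetSum _ fun k _ => continuous_finsetSum _ fun l _ =>
      (continuous_const.mul ((hev _).comp ?_)).mul continuous_const
    unfold Tri.pt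
    fun_prop
  exact ge_of_tendsto ((hcont.tendsto 0).mono_left
      (nhdsWithin_le_nhds : nhdsWithin (0 : ℝ) (Set.Ioi 0) ≤ nhds 0))
    (Filter.eventually_of_mem self_mem_nhdsWithin fun s (hs0 : (0 : ℝ) < s) => hpos s hs0)

/-- Two halves give the whole; the side condition is decidable. -/
theorem posOn_node {m : ℕ} {M : Fin m → Fin m → Ex} {V : Tri} (r : ℕ) {A B : Tri}
    (he : (V.rot r).even = true ∧ A = ⟨(V.rot r).p0, (V.rot r).mid, (V.rot r).p2⟩ ∧
      B = ⟨(V.rot r).mid, (V.rot r).p1, (V.rot r).p2⟩)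
    (h₁ : PosOn M A) (h₂ : PosOn M B) : PosOn M V :=
  posOn_rot r (posOn_bisect he.1 (he.2.1 ▸ h₁) (he.2.2 ▸ h₂))

end Vale.Agent.P252.PDCoef
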