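import Mathlib
import Vale.Agent.P100T.PosCheck

/-!
# Polynomial matrices positive semidefinite on triangle cones

An `m × m` symmetric matrix of polynomial expressions in three variables is positive semidefinite
on the cone spanned by three points when, after substituting `p₀ X + p₁ Y + p₂` and a congruence
`T = L M Lᵀ`, the diagonal of `T` and every `T i i * T j j - (m - 1) ^ 2 * T i j ^ 2` have
nonnegative coefficients in `X`, `Y`. All coefficient tests of one triangle use the same Kronecker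
substitution, so the entries are evaluated once, at integers.
-/

namespace Vale.Agent.P252.PolyPSD

open Finset Vale.Agent.P100T.PosCheck
open scoped Matrix

/-- Replace the three variables by expressions. -/
def subst (a b c : Ex) : Ex → Ex
  | .num k => .num k
  | .x => a
  | .y => b
  | .z => c
  | .add e f => .add (subst a b c e) (subst a b c f)
  | .sub e f => .sub (subst a b c e) (subst a b c f)
  | .mul e f => .mul (subst a b c e) (subst a b c f)
  | .pow e n => .pow (subst a b c e) n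

theorem eval_subst {R : Type*} [CommRing R] (a b c : Ex) (X Y Z : R) : ∀ e : Ex,
    (subst a b c e).eval X Y Z = e.eval (a.eval X Y Z) (b.eval X Y Z) (c.eval X Y Z)
  | .num k => rfl
  | .x => rfl
  | .y => rfl
  | .z => rfl
  | .add e f => by simp only [subst, Ex.eval, eval_subst a b c X Y Z e, eval_subst a b c X Y Z f]
  | .sub e f => by simp only [subst, Ex.eval, eval_subst a b c X Y Z e, eval_subst a b c X Y Z f]
  | .mul e f => by simp only [subst, Ex.eval, eval_subst a b c X Y Z e, eval_subst a b c X Y Z f]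
  | .pow e n => by simp only [subst, Ex.eval, eval_subst a b c X Y Z e]

/-- A triangle cone: three integer points. -/
structure Tri where
  p0 : ℤ × ℤ × ℤ
  p1 : ℤ × ℤ × ℤ
  p2 : ℤ × ℤ × ℤ

/-- `p₀ x + p₁ y + p₂` in one coordinate. -/
def lin (a b c : ℤ) : Ex :=
  .add (.add (.mul (.num a) .x) (.mul (.num b) .y)) (.num c)

/-- An expression pulled back to the triangle. -/
def Tri.pull (V : Tri) (e : Ex) : Ex :=
  subst (lin V.p0.1 V.p1.1 V.p2.1) (lin V.p0.2.1 V.p1.2.1 V.p2.2.1)
    (lin V.p0.2.2 V.p1.2.2 V.p2.2.2) e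

/-- The point with weights `a`, `b`, `c`, coordinatewise. -/
def Tri.pt (V : Tri) (a b c : ℝ) : ℝ × ℝ × ℝ :=
  (a * V.p0.1 + b * V.p1.1 + c * V.p2.1, a * V.p0.2.1 + b * V.p1.2.1 + c * V.p2.2.1,
    a * V.p0.2.2 + b * V.p1.2.2 + c * V.p2.2.2)

/-- The value at a point. -/
def evalAt (e : Ex) (p : ℝ × ℝ × ℝ) : ℝ := e.eval p.1 p.2.1 p.2.2

theorem eval_pull (V : Tri) (e : Ex) (X Y : ℝ) :
    (V.pull e).eval X Y 0 = evalAt e (V.pt X Y 1) := by
  simp only [Tri.pull, eval_subst, lin, Ex.eval, Tri.pt, evalAt, mul_comm X, mul_comm Y, one_mul]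

/-- A sum of expressions. -/
def sumEx (l : List Ex) : Ex := l.foldr .add (.num 0)

theorem eval_sumEx {R : Type*} [CommRing R] (X Y Z : R) : ∀ l : List Ex,
    (sumEx l).eval X Y Z = (l.map fun e => e.eval X Y Z).sum
  | [] => by simp [sumEx, Ex.eval]
  | e :: l => by
    show (Ex.add e (sumEx l)).eval X Y Z = _
    simp [Ex.eval, eval_sumEx X Y Z l]

/-- The entry of `T = L M Lᵀ`, the zero factors dropped. -/
def congr {m : ℕ} (L : Fin m → Fin m → ℤ) (M : Fin m → Fin m → Ex) (i j : Fin m) : Ex :=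
  sumEx ((List.finRange m).map fun k =>
    if L i k = 0 then .num 0 else .mul (.num (L i k))
      (sumEx ((List.finRange m).map fun l =>
        if L j l = 0 then .num 0 else .mul (.num (L j l)) (M k l))))

theorem eval_congr {R : Type*} [CommRing R] {m : ℕ} (L : Fin m → Fin m → ℤ)
    (M : Fin m → Fin m → Ex) (i j : Fin m) (X Y Z : R) :
    (congr L M i j).eval X Y Z =
      ∑ k, (L i k : R) * ∑ l, (L j l : R) * (M k l).eval X Y Z := by
  rw [congr, eval_sumEx, List.map_map, ← Fin.sum_univ_def]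
  refine Finset.sum_congr rfl fun k _ => ?_
  by_cases hk : L i k = 0
  · simp [hk, Ex.eval]
  · simp only [Function.comp_apply, if_neg hk, Ex.eval, eval_sumEx, List.map_map, ← Fin.sum_univ_def]
    refine congrArg _ (Finset.sum_congr rfl fun l _ => ?_)
    by_cases hl : L j l = 0
    · simp [hl, Ex.eval]
    · simp [hl, Ex.eval]

/-! ### Evaluation by recursion, fast in the kernel -/

/-- Bound on the total degree. -/
noncomputable def tdeg (e : Ex) : ℕ :=
  Ex.rec (fun _ => 0) 1 1 1 (fun _ _ p q => Nat.max p q) (fun _ _ p q => Nat.max p q)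
    (fun _ _ p q => Nat.add p q) (fun _ n p => Nat.mul n p) e

/-- The norm after a substitution by expressions of norms `A`, `B`, `C`. -/
noncomputable def normAt (A B C : ℕ) (e : Ex) : ℕ :=
  Ex.rec (fun k => k.natAbs) A B C (fun _ _ p q => Nat.add p q) (fun _ _ p q => Nat.add p q)
    (fun _ _ p q => Nat.mul p q) (fun _ n p => Nat.pow p n) e

/-- The value at integers. -/
noncomputable def ev (A B C : ℤ) (e : Ex) : ℤ :=
  Ex.rec (fun k => k) A B C (fun _ _ p q => Int.add p q) (fun _ _ p q => Int.sub p q)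
    (fun _ _ p q => Int.mul p q) (fun _ n p => Nat.rec 1 (fun _ r => Int.mul r p) n) e

theorem ev_eq (A B C : ℤ) (e : Ex) : ev A B C e = e.eval A B C := by
  induction e with
  | num k => simp [ev, Ex.eval]
  | x => rfl
  | y => rfl
  | z => rfl
  | add a b ha hb => simp only [Ex.eval, ← ha, ← hb]; rfl
  | sub a b ha hb => simp only [Ex.eval, ← ha, ← hb]; rfl
  | mul a b ha hb => simp only [Ex.eval, ← ha, ← hb]; rfl
  | pow a n ha =>
    induction n with
    | zero => simp [Ex.eval]; rfl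
    | succ n ih => simp only [Ex.eval, pow_succ] at *; rw [← ih, ← ha]; rfl

theorem norm_subst (a b c : Ex) (e : Ex) :
    (subst a b c e).norm = normAt a.norm b.norm c.norm e := by
  induction e with
  | num k => rfl
  | x => rfl
  | y => rfl
  | z => rfl
  | add e f he hf => simp only [subst, Ex.norm, he, hf]; rfl
  | sub e f he hf => simp only [subst, Ex.norm, he, hf]; rfl
  | mul e f he hf => simp only [subst, Ex.norm, he, hf]; rfl
  | pow e n he => simp only [subst, Ex.norm, he]; rfl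

/-- Both degrees are at most `d`, and the third variable does not occur. -/
def Bd (d : ℕ) (e : Ex) : Prop := e.deg.1 ≤ d ∧ e.deg.2.1 ≤ d ∧ e.deg.2.2 = 0

theorem bd_pull (V : Tri) (e : Ex) : Bd (tdeg e) (V.pull e) := by
  induction e with
  | num k => simp [Tri.pull, subst, Bd, Ex.deg]
  | x => simp [Tri.pull, subst, Bd, Ex.deg, lin, tdeg]
  | y => simp [Tri.pull, subst, Bd, Ex.deg, lin, tdeg]
  | z => simp [Tri.pull, subst, Bd, Ex.deg, lin, tdeg]
  | add e f he hf =>
    simp only [Tri.pull, subst, Bd, Ex.deg] at *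
    exact ⟨max_le_max he.1 hf.1, max_le_max he.2.1 hf.2.1, by simp [he.2.2, hf.2.2]⟩
  | sub e f he hf =>
    simp only [Tri.pull, subst, Bd, Ex.deg] at *
    exact ⟨max_le_max he.1 hf.1, max_le_max he.2.1 hf.2.1, by simp [he.2.2, hf.2.2]⟩
  | mul e f he hf =>
    simp only [Tri.pull, subst, Bd, Ex.deg] at *
    exact ⟨add_le_add he.1 hf.1, add_le_add he.2.1 hf.2.1, by simp [he.2.2, hf.2.2]⟩
  | pow e n he =>
    simp only [Tri.pull, subst, Bd, Ex.deg] at *
    exact ⟨Nat.mul_le_mul_left n he.1, Nat.mul_le_mul_left n he.2.1, by simp [he.2.2]⟩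

theorem bd_sumEx {d : ℕ} : ∀ {l : List Ex}, (∀ e ∈ l, Bd d e) → Bd d (sumEx l)
  | [], _ => by simp [sumEx, Bd, Ex.deg]
  | e :: l, h => by
    have h1 := h e (List.mem_cons_self ..)
    have h2 := bd_sumEx fun f hf => h f (List.mem_cons_of_mem _ hf)
    exact ⟨max_le h1.1 h2.1, max_le h1.2.1 h2.2.1,
      (congrArg₂ max h1.2.2 h2.2.2).trans (max_self 0)⟩

theorem norm_sumEx : ∀ l : List Ex, (sumEx l).norm = (l.map Ex.norm).sum
  | [] => by simp [sumEx, Ex.norm]
  | e :: l => by
    show (Ex.add e (sumEx l)).norm = _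
    simp [Ex.norm, norm_sumEx l]

theorem bd_congr {m d : ℕ} (L : Fin m → Fin m → ℤ) {M : Fin m → Fin m → Ex}
    (h : ∀ k l, Bd d (M k l)) (i j : Fin m) : Bd d (congr L M i j) := by
  have hz : Bd d (.num 0) := ⟨Nat.zero_le _, Nat.zero_le _, rfl⟩
  refine bd_sumEx fun e he => ?_
  obtain ⟨k, -, rfl⟩ := List.mem_map.1 he
  split_ifs
  · exact hz
  · have h2 : Bd d (sumEx ((List.finRange m).map fun l =>
        if L j l = 0 then .num 0 else .mul (.num (L j l)) (M k l))) := by
      refine bd_sumEx fun e he => ?_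
      obtain ⟨l, -, rfl⟩ := List.mem_map.1 he
      split_ifs
      · exact hz
      · simpa [Bd, Ex.deg] using h k l
    simpa [Bd, Ex.deg] using h2

theorem norm_congr {m N : ℕ} (L : Fin m → Fin m → ℤ) {M : Fin m → Fin m → Ex}
    (h : ∀ k l, (M k l).norm ≤ N) (i j : Fin m) :
    (congr L M i j).norm ≤ (∑ k, (L i k).natAbs) * ((∑ l, (L j l).natAbs) * N) := by
  rw [congr, norm_sumEx, List.map_map, ← Fin.sum_univ_def, Finset.sum_mul]
  refine Finset.sum_le_sum fun k _ => ?_
  by_cases hk : L i k = 0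
  · simp [hk, Ex.norm]
  · simp only [Function.comp_apply, if_neg hk, Ex.norm, norm_sumEx, List.map_map,
      ← Fin.sum_univ_def]
    refine Nat.mul_le_mul_left _ ?_
    rw [Finset.sum_mul]
    refine Finset.sum_le_sum fun l _ => ?_
    by_cases hl : L j l = 0
    · simp [hl, Ex.norm]
    · simp only [if_neg hl, Ex.norm]
      exact Nat.mul_le_mul_left _ (h k l)

/-! ### The test -/

/-- The largest number in a list. -/
def mx (l : List ℕ) : ℕ := l.foldr max 0

theorem le_mx {a : ℕ} : ∀ {l : List ℕ}, a ∈ l → a ≤ mx l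
  | b :: l, h => by
    rcases List.mem_cons.1 h with rfl | h
    · exact le_max_left _ _
    · exact le_max_of_le_right (le_mx h)

/-- The value has nonnegative signed digits. -/
def passes (k P : ℕ) (v : ℤ) : Bool :=
  match v with
  | .ofNat n => Nat.beq (n &&& mask k (P * P)) 0
  | .negSucc _ => false

/-- Sum of the absolute values. -/
def lnorm (a b c : ℤ) : ℕ := a.natAbs + b.natAbs + c.natAbs

/-- A bound on the norms of the pulled entries. -/
noncomputable def entryNorm {m : ℕ} (M : Fin m → Fin m → Ex) (V : Tri) : ℕ :=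
  mx ((List.finRange m).map fun k => mx ((List.finRange m).map fun l =>
    normAt (lnorm V.p0.1 V.p1.1 V.p2.1) (lnorm V.p0.2.1 V.p1.2.1 V.p2.2.1)
      (lnorm V.p0.2.2 V.p1.2.2 V.p2.2.2) (M k l)))

/-- The largest absolute row sum. -/
def rowNorm {m : ℕ} (L : Fin m → Fin m → ℤ) : ℕ :=
  mx ((List.finRange m).map fun i => ((List.finRange m).map fun k => (L i k).natAbs).sum)

/-- The number of bits of a digit. -/
noncomputable def bitsOf {m : ℕ} (M : Fin m → Fin m → Ex) (L : Fin m → Fin m → ℤ) (V : Tri) : ℕ :=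
  Nat.log2 ((1 + m ^ 2) * (rowNorm L ^ 2 * entryNorm M V + 1) ^ 2) + 1

/-- A bound on the degree of the entries. -/
noncomputable def degOf {m : ℕ} (M : Fin m → Fin m → Ex) : ℕ :=
  mx ((List.finRange m).map fun k => mx ((List.finRange m).map fun l => tdeg (M k l)))

/-- The test with given digit size and number of digits in each variable. -/
noncomputable def checkAt {m : ℕ} (M : Fin m → Fin m → Ex) (L : Fin m → Fin m → ℤ) (V : Tri)
    (k P : ℕ) : Bool :=
  let B : ℤ := ((2 ^ (k + 1) : ℕ) : ℤ)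
  let BP : ℤ := (((2 ^ (k + 1)) ^ P : ℕ) : ℤ)
  let g : Fin m → Fin m → ℤ := fun a b =>
    ev (V.p0.1 * B + V.p1.1 * BP + V.p2.1) (V.p0.2.1 * B + V.p1.2.1 * BP + V.p2.2.1)
      (V.p0.2.2 * B + V.p1.2.2 * BP + V.p2.2.2) (M a b)
  let t : Fin m → Fin m → ℤ := fun i j => ((List.finRange m).map fun a =>
    if L i a = 0 then 0 else L i a * ((List.finRange m).map fun b =>
      if L j b = 0 then 0 else L j b * g a b).sum).sum
  ((List.finRange m).all fun i => decide (L i i ≠ 0) && passes k P (t i i)) &&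
    (List.finRange m).all fun i => (List.finRange m).all fun j =>
      if i < j then decide (L i j = 0) &&
        passes k P (t i i * t j j - ((m : ℤ) - 1) ^ 2 * (t i j * t i j))
      else true

/-- The test: `L` is lower triangular with nonzero diagonal, and the congruent matrix passes. -/
noncomputable def checkTri {m : ℕ} (M : Fin m → Fin m → Ex) (L : Fin m → Fin m → ℤ) (V : Tri) :
    Bool :=
  checkAt M L V (bitsOf M L V) (2 * degOf M + 1)

/-- A polynomial in two variables with small coefficients and degrees whose value passes is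
nonnegative. -/
theorem nonneg_of_passes {e : Ex} {k P : ℕ} (hn : e.norm < 2 ^ k) (hd : Bd P e)
    (hP : e.deg.1 < P ∧ e.deg.2.1 < P) {W : ℤ}
    (h : passes k P (e.eval ((2 ^ (k + 1) : ℕ) : ℤ) (((2 ^ (k + 1)) ^ P : ℕ) : ℤ) W) = true)
    {a b : ℝ} (ha : 0 ≤ a) (hb : 0 ≤ b) : 0 ≤ e.eval a b 0 := by
  have hP0 : 0 < P := by omega
  have hl : ∀ t ∈ e.terms, t.2.1 < P ∧ t.2.2.1 < P ∧ t.2.2.2 = 0 := fun t ht => by
    obtain ⟨h1, h2, h3⟩ := e.terms_deg t ht
    have h4 := hd.2.2
    omega
  have hidx : ∀ t ∈ e.terms, idx P P t.2 = t.2.1 + P * t.2.2.1 := fun t ht => by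
    simp [idx, (hl t ht).2.2]
  have hlt : ∀ t ∈ e.terms, idx P P t.2 < P * P := fun t ht => by
    obtain ⟨h1, h2, h3⟩ := hl t ht
    rw [hidx t ht]
    nlinarith
  set c := coeff P P e.terms
  have hI : e.eval ((2 ^ (k + 1) : ℕ) : ℤ) (((2 ^ (k + 1)) ^ P : ℕ) : ℤ) W =
      ∑ i ∈ Finset.range (P * P), c i * ((2 : ℤ) ^ (k + 1)) ^ i := by
    have := sum_coeff P P (P * P) (fun i => ((2 : ℤ) ^ (k + 1)) ^ i) e.terms hlt
    simp only [Int.cast_id] at this
    rw [← this, ← Ex.tval_terms, tval]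
    refine congrArg List.sum (List.map_congr_left fun t ht => ?_)
    rw [hidx t ht, (hl t ht).2.2, Int.cast_id, pow_zero, mul_one]
    push_cast
    rw [← pow_mul _ P, ← pow_add]
  have hc : ∀ i, |c i| < (2 : ℤ) ^ k := fun i =>
    calc |c i| ≤ (tnorm e.terms : ℤ) := coeff_abs ..
      _ ≤ (e.norm : ℤ) := by exact_mod_cast e.tnorm_terms
      _ < (2 : ℤ) ^ k := by exact_mod_cast hn
  have hco : ∀ i < P * P, 0 ≤ c i := by
    unfold passes at h
    rw [hI] at h
    split at h
    · next n hv => exact mask_sound k (P * P) c n hc hv.symm (Nat.eq_of_beq_eq_true h)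
    · simp at h
  have key := sum_coeff (R := ℝ) P P (P * P) (fun i => a ^ (i % P) * b ^ (i / P)) e.terms hlt
  rw [← Ex.tval_terms, tval]
  refine le_of_le_of_eq (Finset.sum_nonneg fun i hi =>
    mul_nonneg (Int.cast_nonneg (hco i (Finset.mem_range.1 hi))) (by positivity)) (key.symm.trans ?_)
  refine congrArg List.sum (List.map_congr_left fun t ht => ?_)
  rw [hidx t ht, (hl t ht).2.2, Nat.add_mul_mod_self_left, Nat.mod_eq_of_lt (hl t ht).1,
    Nat.add_mul_div_left _ _ hP0, Nat.div_eq_of_lt (hl t ht).1, zero_add, pow_zero, mul_one]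

/-- What the test establishes. -/
theorem checkTri_sound {m : ℕ} {M : Fin m → Fin m → Ex} {L : Fin m → Fin m → ℤ} {V : Tri}
    (h : checkTri M L V = true) {X Y : ℝ} (hX : 0 ≤ X) (hY : 0 ≤ Y) :
    let T := fun i j => (congr L (fun k l => V.pull (M k l)) i j).eval X Y 0
    (∀ i, L i i ≠ 0 ∧ 0 ≤ T i i) ∧
      ∀ i j, i < j → L i j = 0 ∧ ((m : ℝ) - 1) ^ 2 * T i j ^ 2 ≤ T i i * T j j := by
  intro T
  set k := bitsOf M L V with hk
  set D := degOf M
  set P := 2 * D + 1 with hP
  set E := congr L fun k l => V.pull (M k l) with hE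
  have hB : ∀ i j, Bd D (E i j) := bd_congr L fun a b => by
    have hd : tdeg (M a b) ≤ D :=
      le_trans (le_mx (List.mem_map_of_mem (f := fun l => tdeg (M a l)) (List.mem_finRange b)))
        (le_mx (List.mem_map_of_mem (f := fun k => mx ((List.finRange m).map fun l => tdeg (M k l)))
          (List.mem_finRange a)))
    obtain ⟨h1, h2, h3⟩ := bd_pull V (M a b)
    exact ⟨h1.trans hd, h2.trans hd, h3⟩
  set N := rowNorm L ^ 2 * entryNorm M V with hN
  have hR : ∀ i, ∑ a, (L i a).natAbs ≤ rowNorm L := fun i => by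
    rw [Fin.sum_univ_def]
    exact le_mx (List.mem_map_of_mem (f := fun i => ((List.finRange m).map fun k => (L i k).natAbs).sum)
      (List.mem_finRange i))
  have hnorm : ∀ i j, (E i j).norm ≤ N := fun i j => by
    refine (norm_congr L (N := entryNorm M V) (fun a b => ?_) i j).trans ?_
    · rw [Tri.pull, norm_subst]
      refine le_trans (le_of_eq ?_) (le_trans (le_mx (List.mem_map_of_mem
        (f := fun l => normAt (lnorm V.p0.1 V.p1.1 V.p2.1) (lnorm V.p0.2.1 V.p1.2.1 V.p2.2.1)
          (lnorm V.p0.2.2 V.p1.2.2 V.p2.2.2) (M a l)) (List.mem_finRange b)))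
        (le_mx (List.mem_map_of_mem (f := fun k => mx ((List.finRange m).map fun l =>
          normAt (lnorm V.p0.1 V.p1.1 V.p2.1) (lnorm V.p0.2.1 V.p1.2.1 V.p2.2.1)
            (lnorm V.p0.2.2 V.p1.2.2 V.p2.2.2) (M k l))) (List.mem_finRange a))))
      simp [lin, Ex.norm, lnorm]
    · rw [hN, pow_two, mul_assoc]
      exact Nat.mul_le_mul (hR i) (Nat.mul_le_mul_right _ (hR j))
  have hbits : ∀ c, c ≤ (1 + m ^ 2) * (N + 1) ^ 2 → c < 2 ^ k := fun c hc =>
    lt_of_le_of_lt hc Nat.lt_log2_self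
  simp only [checkTri, checkAt, Bool.and_eq_true, List.all_eq_true, List.mem_finRange, true_implies,
    decide_eq_true_eq] at h
  set B : ℤ := ((2 ^ (k + 1) : ℕ) : ℤ) with hBdef
  set BP : ℤ := (((2 ^ (k + 1)) ^ P : ℕ) : ℤ) with hBPdef
  have hval : ∀ i j, ((List.finRange m).map fun a =>
      if L i a = 0 then 0 else L i a * ((List.finRange m).map fun b =>
        if L j b = 0 then 0 else L j b *
          ev (V.p0.1 * B + V.p1.1 * BP + V.p2.1) (V.p0.2.1 * B + V.p1.2.1 * BP + V.p2.2.1)
            (V.p0.2.2 * B + V.p1.2.2 * BP + V.p2.2.2) (M a b)).sum).sum =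
      (E i j).eval B BP 0 := fun i j => by
    rw [hE, eval_congr, ← Fin.sum_univ_def]
    refine Finset.sum_congr rfl fun a _ => ?_
    split_ifs with ha
    · simp [ha]
    · rw [← Fin.sum_univ_def, Int.cast_id]
      refine congrArg _ (Finset.sum_congr rfl fun b _ => ?_)
      split_ifs with hb
      · simp [hb]
      · simp only [Int.cast_id, ev_eq, Tri.pull, eval_subst, lin, Ex.eval]
  simp only [hval] at h
  refine ⟨fun i => ⟨(h.1 i).1, ?_⟩, fun i j hij => ?_⟩
  · obtain ⟨h1, h2, h3⟩ := hB i i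
    refine nonneg_of_passes (hbits _ ?_) ⟨by omega, by omega, h3⟩ ⟨by omega, by omega⟩ (h.1 i).2 hX hY
    nlinarith [hnorm i i, Nat.zero_le (m ^ 2)]
  · have h2 := h.2 i j
    rw [if_pos hij] at h2
    simp only [Bool.and_eq_true, decide_eq_true_eq] at h2
    refine ⟨h2.1, ?_⟩
    set e : Ex := .sub (.mul (E i i) (E j j))
      (.mul (.num (((m : ℤ) - 1) ^ 2)) (.mul (E i j) (E i j))) with he
    have hq : Bd P e ∧ e.deg.1 < P ∧ e.deg.2.1 < P := by
      obtain ⟨a1, a2, a3⟩ := hB i i
      obtain ⟨b1, b2, b3⟩ := hB j j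
      obtain ⟨c1, c2, c3⟩ := hB i j
      simp only [he, Bd, Ex.deg, a3, b3, c3]
      omega
    have hn : e.norm ≤ (1 + m ^ 2) * (N + 1) ^ 2 := by
      have hm : (((m : ℤ) - 1) ^ 2).natAbs ≤ m ^ 2 := by
        rw [Int.natAbs_pow]
        exact Nat.pow_le_pow_left (by have := i.isLt; omega) 2
      have p1 := Nat.mul_le_mul (hnorm i i) (hnorm j j)
      have p2 := Nat.mul_le_mul hm (Nat.mul_le_mul (hnorm i j) (hnorm i j))
      simp only [he, Ex.norm]
      nlinarith
    have h0 := nonneg_of_passes (hbits _ hn) hq.1 hq.2 (W := 0)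
      (by simp only [he, Ex.eval, Int.cast_id]; exact h2.2) hX hY
    simp only [he, Ex.eval] at h0
    push_cast at h0
    linarith [h0, sq (T i j)]

/-- A symmetric matrix with small off-diagonal entries gives a nonnegative form. -/
theorem form_nonneg_of_small {m : ℕ} {t : Fin m → Fin m → ℝ} (hd : ∀ i, 0 ≤ t i i)
    (ho : ∀ i j, i ≠ j → ((m : ℝ) - 1) ^ 2 * t i j ^ 2 ≤ t i i * t j j) (η : Fin m → ℝ) :
    0 ≤ ∑ i, ∑ j, η i * t i j * η j := by
  rcases Nat.lt_or_ge m 2 with hm | hm
  · refine Finset.sum_nonneg fun i _ => Finset.sum_nonneg fun j _ => ?_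
    obtain rfl : i = j := Fin.ext (by omega)
    nlinarith [hd i, mul_self_nonneg (η i)]
  have hm1 : (0 : ℝ) < (m : ℝ) - 1 := by
    have : (2 : ℝ) ≤ m := by exact_mod_cast hm
    linarith
  have key : ∀ i j, (if i = j then t i i * η i ^ 2 else
      -((t i i * η i ^ 2 + t j j * η j ^ 2) / (2 * ((m : ℝ) - 1)))) ≤ η i * t i j * η j := by
    intro i j
    by_cases h : i = j
    · subst h
      rw [if_pos rfl]
      exact le_of_eq (by ring)
    · rw [if_neg h, neg_le, le_div_iff₀ (by positivity)]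
      have hA : 0 ≤ t i i * η i ^ 2 := mul_nonneg (hd i) (sq_nonneg _)
      have hB : 0 ≤ t j j * η j ^ 2 := mul_nonneg (hd j) (sq_nonneg _)
      have h2 := mul_le_mul_of_nonneg_left (ho i j h) (sq_nonneg (η i * η j))
      nlinarith [sq_nonneg (t i i * η i ^ 2 - t j j * η j ^ 2)]
  have hid : ∑ i, ∑ j, (if i = j then t i i * η i ^ 2 else
      -((t i i * η i ^ 2 + t j j * η j ^ 2) / (2 * ((m : ℝ) - 1)))) = 0 := by
    set S := ∑ i, t i i * η i ^ 2
    have : ∀ i j, (if i = j then t i i * η i ^ 2 else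
        -((t i i * η i ^ 2 + t j j * η j ^ 2) / (2 * ((m : ℝ) - 1)))) =
        -((t i i * η i ^ 2 + t j j * η j ^ 2) / (2 * ((m : ℝ) - 1))) +
        (if i = j then t i i * η i ^ 2 * ((m : ℝ) / ((m : ℝ) - 1)) else 0) := by
      intro i j
      split_ifs with h
      · subst h
        field_simp
        ring
      · ring
    simp only [this, Finset.sum_add_distrib, Finset.sum_ite_eq, Finset.mem_univ, if_true,
      Finset.sum_neg_distrib, ← Finset.sum_div, ← Finset.sum_mul, Finset.sum_const,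
      Finset.card_univ, Fintype.card_fin, nsmul_eq_mul]
    field_simp
    simp [Finset.mul_sum, mul_assoc]
    ring
  exact le_of_eq_of_le hid.symm (Finset.sum_le_sum fun i _ => Finset.sum_le_sum fun j _ => key i j)

/-- The matrix is nonnegative as a form at the points with weights `X, Y, 1`. -/
theorem form_nonneg_chart {m : ℕ} {M : Fin m → Fin m → Ex} {L : Fin m → Fin m → ℤ} {V : Tri}
    (hs : ∀ k l p, evalAt (M k l) p = evalAt (M l k) p) (h : checkTri M L V = true)
    {X Y : ℝ} (hX : 0 ≤ X) (hY : 0 ≤ Y) (ξ : Fin m → ℝ) :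
    0 ≤ ∑ k, ∑ l, ξ k * evalAt (M k l) (V.pt X Y 1) * ξ l := by
  obtain ⟨h1, h2⟩ := checkTri_sound h hX hY
  set g : Fin m → Fin m → ℝ := fun k l => evalAt (M k l) (V.pt X Y 1) with hg
  set t : Fin m → Fin m → ℝ := fun i j => ∑ k, (L i k : ℝ) * ∑ l, (L j l : ℝ) * g k l with ht
  have heval : ∀ i j, (congr L (fun k l => V.pull (M k l)) i j).eval X Y 0 = t i j := fun i j => by
    rw [eval_congr]
    simp only [eval_pull, ht, hg]
  simp only [heval] at h1 h2
  have hsym : ∀ i j, t i j = t j i := fun i j => by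
    simp only [ht, Finset.mul_sum]
    rw [Finset.sum_comm]
    refine Finset.sum_congr rfl fun k _ => Finset.sum_congr rfl fun l _ => ?_
    rw [show g l k = g k l from hs _ _ _]
    ring
  have hd : ∀ i, 0 ≤ t i i := fun i => (h1 i).2
  have ho : ∀ i j, i ≠ j → ((m : ℝ) - 1) ^ 2 * t i j ^ 2 ≤ t i i * t j j := by
    intro i j hij
    rcases lt_or_gt_of_ne hij with hlt | hlt
    · exact (h2 i j hlt).2
    · have := (h2 j i hlt).2
      rw [hsym j i, mul_comm (t j j)] at this
      exact this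
  have hlow : ∀ i j, i < j → L i j = 0 := fun i j hlt => (h2 i j hlt).1
  set A : Matrix (Fin m) (Fin m) ℝ := Matrix.of fun i k => (L i k : ℝ) with hA
  have hdet : IsUnit A.det := by
    rw [Matrix.det_of_isLowerTriangular A (fun i j hij => by
      simpa [hA] using hlow i j hij), isUnit_iff_ne_zero]
    exact Finset.prod_ne_zero_iff.2 fun i _ => by simpa [hA] using (h1 i).1
  set η := ξ ᵥ* A⁻¹ with hη
  have hξ : ξ = η ᵥ* A := by
    rw [hη, Matrix.vecMul_vecMul, Matrix.nonsing_inv_mul A hdet, Matrix.vecMul_one]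
  refine le_of_le_of_eq (form_nonneg_of_small hd ho η) ?_
  have e : ∀ k, ξ k = ∑ i, η i * (L i k : ℝ) := fun k => by
    rw [hξ]; simp [Matrix.vecMul, dotProduct, hA]
  simp only [e, Finset.sum_mul, Finset.mul_sum, ht]
  rw [show ∀ F : Fin m → Fin m → Fin m → Fin m → ℝ,
      ∑ i, ∑ j, ∑ k, ∑ l, F i j k l = ∑ k, ∑ l, ∑ i, ∑ j, F i j k l from fun F => by
    calc ∑ i, ∑ j, ∑ k, ∑ l, F i j k l = ∑ i, ∑ k, ∑ j, ∑ l, F i j k l :=
          Finset.sum_congr rfl fun i _ => Finset.sum_comm
      _ = ∑ k, ∑ i, ∑ j, ∑ l, F i j k l := Finset.sum_comm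
      _ = ∑ k, ∑ i, ∑ l, ∑ j, F i j k l :=
          Finset.sum_congr rfl fun k _ => Finset.sum_congr rfl fun i _ => Finset.sum_comm
      _ = ∑ k, ∑ l, ∑ i, ∑ j, F i j k l := Finset.sum_congr rfl fun k _ => Finset.sum_comm]
  refine Finset.sum_congr rfl fun k _ => Finset.sum_congr rfl fun l _ => ?_
  rw [Finset.sum_comm]
  refine Finset.sum_congr rfl fun i _ => Finset.sum_congr rfl fun j _ => ?_
  simp only [hg]
  ring

/-- A checked matrix gives a nonnegative form on the whole closed cone. The entry `(k, l)` has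
degree `d - w k - w l`. -/
theorem form_nonneg {m : ℕ} {M : Fin m → Fin m → Ex} {L : Fin m → Fin m → ℤ} {V : Tri} {d : ℕ}
    (w : Fin m → ℕ) (hs : ∀ k l p, evalAt (M k l) p = evalAt (M l k) p)
    (hhom : ∀ k l (r : ℝ) (p : ℝ × ℝ × ℝ),
      r ^ w k * r ^ w l * evalAt (M k l) (r * p.1, r * p.2.1, r * p.2.2) = r ^ d * evalAt (M k l) p)
    (h : checkTri M L V = true) {a b c : ℝ} (ha : 0 ≤ a) (hb : 0 ≤ b) (hc : 0 ≤ c)
    (ξ : Fin m → ℝ) :
    0 ≤ ∑ k, ∑ l, ξ k * evalAt (M k l) (V.pt a b c) * ξ l := by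
  have hpos : ∀ s, 0 < s → 0 ≤ ∑ k, ∑ l, ξ k * evalAt (M k l) (V.pt a b s) * ξ l := by
    intro s hs0
    have h0 := form_nonneg_chart hs h (div_nonneg ha hs0.le) (div_nonneg hb hs0.le)
      fun k => ξ k / s ^ w k
    have e : V.pt a b s = (s * (V.pt (a / s) (b / s) 1).1, s * (V.pt (a / s) (b / s) 1).2.1,
        s * (V.pt (a / s) (b / s) 1).2.2) := by
      simp only [Tri.pt, Prod.mk.injEq]
      refine ⟨?_, ?_, ?_⟩ <;> field_simp
    have e2 : ∀ k l, ξ k * evalAt (M k l) (V.pt a b s) * ξ l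
        = s ^ d * (ξ k / s ^ w k * evalAt (M k l) (V.pt (a / s) (b / s) 1) * (ξ l / s ^ w l)) :=
      fun k l => by
        rw [e]
        have := hhom k l s (V.pt (a / s) (b / s) 1)
        field_simp
        linear_combination (ξ k * ξ l) * this
    simp only [e2, ← Finset.mul_sum]
    exact mul_nonneg (pow_nonneg hs0.le d) h0
  rcases lt_or_eq_of_le hc with hc' | rfl
  · exact hpos c hc'
  have hev : ∀ e : Ex, Continuous fun p : ℝ × ℝ × ℝ => evalAt e p := fun e => by
    unfold evalAt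
    induction e with
    | num k => simpa [Ex.eval] using continuous_const
    | x => exact continuous_fst
    | y => exact continuous_snd.fst
    | z => exact continuous_snd.snd
    | add e f he hf => simp only [Ex.eval]; exact he.add hf
    | sub e f he hf => simp only [Ex.eval]; exact he.sub hf
    | mul e f he hf => simp only [Ex.eval]; exact he.mul hf
    | pow e n he => simp only [Ex.eval]; exact he.pow n
  have hcont : Continuous fun s : ℝ =>
      ∑ k, ∑ l, ξ k * evalAt (M k l) (V.pt a b s) * ξ l := by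
    refine continuous_finsetSum _ fun k _ => continuous_finsetSum _ fun l _ =>
      (continuous_const.mul ((hev _).comp ?_)).mul continuous_const
    unfold Tri.pt
    fun_prop
  exact ge_of_tendsto ((hcont.tendsto 0).mono_left
      (nhdsWithin_le_nhds : nhdsWithin (0 : ℝ) (Set.Ioi 0) ≤ nhds 0))
    (Filter.eventually_of_mem self_mem_nhdsWithin fun s (hs0 : (0 : ℝ) < s) => hpos s hs0)

end Vale.Agent.P252.PolyPSD
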