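import Vale.Agent.P252.Cert.PolyPSD

/-!
# A kernel test that an expression in three variables is the zero polynomial

The expression vanishes at one Kronecker point whose base exceeds twice the sum of the absolute
values of the coefficients.
-/

namespace Vale.Agent.P252.PolyPSD

open Finset Vale.Agent.P100T.PosCheck

theorem norm_eq_normAt (e : Ex) : e.norm = normAt 1 1 1 e := by
  induction e with
  | num k => rfl
  | x => rfl
  | y => rfl
  | z => rfl
  | add e f he hf => simp only [Ex.norm, he, hf]; rfl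
  | sub e f he hf => simp only [Ex.norm, he, hf]; rfl
  | mul e f he hf => simp only [Ex.norm, he, hf]; rfl
  | pow e n he => simp only [Ex.norm, he]; rfl

theorem deg_le_tdeg (e : Ex) :
    e.deg.1 ≤ tdeg e ∧ e.deg.2.1 ≤ tdeg e ∧ e.deg.2.2 ≤ tdeg e := by
  induction e with
  | num k => simp [Ex.deg]
  | x => simp [Ex.deg, tdeg]
  | y => simp [Ex.deg, tdeg]
  | z => simp [Ex.deg, tdeg]
  | add e f he hf => exact ⟨max_le_max he.1 hf.1, max_le_max he.2.1 hf.2.1, max_le_max he.2.2 hf.2.2⟩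
  | sub e f he hf => exact ⟨max_le_max he.1 hf.1, max_le_max he.2.1 hf.2.1, max_le_max he.2.2 hf.2.2⟩
  | mul e f he hf =>
    exact ⟨Nat.add_le_add he.1 hf.1, Nat.add_le_add he.2.1 hf.2.1, Nat.add_le_add he.2.2 hf.2.2⟩
  | pow e n he =>
    exact ⟨Nat.mul_le_mul_left n he.1, Nat.mul_le_mul_left n he.2.1, Nat.mul_le_mul_left n he.2.2⟩

/-- The value at the Kronecker point with bases `2 ^ (k + 1)`, degree bound below `P`. -/
noncomputable def kronVal (e : Ex) (k P : ℕ) : ℤ :=
  ev ((2 ^ (k + 1) : ℕ) : ℤ) (((2 ^ (k + 1)) ^ P : ℕ) : ℤ) (((2 ^ (k + 1)) ^ (P * P) : ℕ) : ℤ) e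

/-- The zero test. -/
noncomputable def zeroCheck (e : Ex) : Bool :=
  decide (kronVal e (Nat.log2 (normAt 1 1 1 e) + 1) (tdeg e + 1) = 0)

/-- An expression passing the test is zero everywhere. -/
theorem eval_eq_zero {e : Ex} (h : zeroCheck e = true) {R : Type*} [CommRing R] (X Y Z : R) :
    e.eval X Y Z = 0 := by
  rw [zeroCheck, decide_eq_true_eq, ← norm_eq_normAt, kronVal, ev_eq] at h
  set k := Nat.log2 e.norm + 1
  set P := tdeg e + 1 with hP
  set D := P * P * P with hD
  have hdg : ∀ t ∈ e.terms, t.2.1 < P ∧ t.2.2.1 < P ∧ t.2.2.2 < P := fun t ht => by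
    obtain ⟨h1, h2, h3⟩ := e.terms_deg t ht
    obtain ⟨d1, d2, d3⟩ := deg_le_tdeg e
    omega
  have hl : ∀ t ∈ e.terms, idx P P t.2 < D := fun t ht => by
    obtain ⟨h1, h2, h3⟩ := hdg t ht
    calc idx P P t.2 < P + P * (t.2.2.1 + P * t.2.2.2) := by unfold idx; omega
      _ = P * (t.2.2.1 + 1 + P * t.2.2.2) := by ring
      _ ≤ P * (P * (t.2.2.2 + 1)) := Nat.mul_le_mul_left _ (by rw [Nat.mul_succ]; omega)
      _ ≤ P * (P * P) := Nat.mul_le_mul_left _ (Nat.mul_le_mul_left _ h3)
      _ = D := by rw [hD, mul_assoc]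
  set c := coeff P P e.terms
  have hI : ∑ i ∈ Finset.range D, c i * ((2 : ℤ) ^ (k + 1)) ^ i = 0 := by
    have := sum_coeff P P D (fun i => ((2 : ℤ) ^ (k + 1)) ^ i) e.terms hl
    simp only [Int.cast_id] at this
    rw [← this, ← h, ← Ex.tval_terms, tval]
    refine congrArg List.sum (List.map_congr_left fun t _ => ?_)
    simp only [idx, Int.cast_id]
    push_cast
    simp only [← pow_mul, ← pow_add]
    ring_nf
  have hc : ∀ i, |c i| < (2 : ℤ) ^ k := fun i =>
    calc |c i| ≤ (tnorm e.terms : ℤ) := coeff_abs ..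
      _ ≤ (e.norm : ℤ) := by exact_mod_cast e.tnorm_terms
      _ < (2 : ℤ) ^ k := by exact_mod_cast Nat.lt_log2_self
  have hzero : ∀ i < D, c i = 0 := fun i hi => by
    have h1 := mask_sound k D c 0 hc (by simp [hI]) (by simp) i hi
    have h2 := mask_sound k D (fun i => -c i) 0 (fun i => by rw [abs_neg]; exact hc i)
      (by simp [neg_mul, Finset.sum_neg_distrib, hI]) (by simp) i hi
    linarith
  have key := sum_coeff (R := R) P P D
    (fun i => X ^ (i % P) * Y ^ (i / P % P) * Z ^ (i / P / P)) e.terms hl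
  rw [Finset.sum_eq_zero fun i hi => by rw [show coeff P P e.terms i = 0 from hzero i (Finset.mem_range.1 hi), Int.cast_zero, zero_mul]]
    at key
  rw [← Ex.tval_terms, tval, ← key]
  refine congrArg List.sum (List.map_congr_left fun t ht => ?_)
  obtain ⟨h1, h2, h3⟩ := hdg t ht
  have hP0 : 0 < P := by omega
  have e1 : idx P P t.2 / P = t.2.2.1 + P * t.2.2.2 := by
    rw [idx, Nat.add_mul_div_left _ _ hP0, Nat.div_eq_of_lt h1, zero_add]
  simp only [e1]
  rw [idx, Nat.add_mul_mod_self_left, Nat.mod_eq_of_lt h1, Nat.add_mul_mod_self_left,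
    Nat.mod_eq_of_lt h2, Nat.add_mul_div_left _ _ hP0, Nat.div_eq_of_lt h2, zero_add]

end Vale.Agent.P252.PolyPSD
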